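import Crest.Agent.X212.Nat27.Op

/-!
# X212 / Nat27 (helper27): the index of the unperturbed equations is natural under isometries
-/

set_option autoImplicit false
set_option linter.unusedSectionVars false
noncomputable section
open scoped Manifold ContDiff Topology InnerProductSpace
open MeasureTheory Set Function Filter

namespace Crest.Agent.X212.Nat27
open An An.Pre Sob92 Ell97 Prm93 Fred93 Mod61 Map77 Nk89 Eqv71

variable {E : Type} [NormedAddCommGroup E] [NormedSpace ℝ E] [FiniteDimensional ℝ E]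
  [MeasurableSpace E] [BorelSpace E]
  {HM : Type} [TopologicalSpace HM] {I : ModelWithCorners ℝ E HM} [I.Boundaryless]
  {M : Type} [TopologicalSpace M] [ChartedSpace HM M] [IsManifold I ∞ M]
  [MeasurableSpace M] [T2Space M] [BorelSpace M] [SecondCountableTopology M] {ι : Type} [Fintype ι]
  {E' : Type} [NormedAddCommGroup E'] [NormedSpace ℝ E'] [FiniteDimensional ℝ E']
  [MeasurableSpace E'] [BorelSpace E']
  {HM' : Type} [TopologicalSpace HM'] {I' : ModelWithCorners ℝ E' HM'} [I'.Boundaryless]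
  {M' : Type} [TopologicalSpace M'] [ChartedSpace HM' M'] [IsManifold I' ∞ M']
  [MeasurableSpace M'] [T2Space M'] [BorelSpace M'] [SecondCountableTopology M']
  {ι' : Type} [Fintype ι'] {lam lam' : Type} [Fintype lam] [Fintype lam'] {φ : M → M'} {ψ : M' → M}
  {U : M → ι' → ι → ℝ} {v : M → CL (Eu lam) (Eu lam')}
  {T T' : Type} [NormedAddCommGroup T] [NormedSpace ℝ T] [NormedAddCommGroup T']
  [NormedSpace ℝ T'] {𝔉 : Fam I M ι lam T} {𝔊 : Fam I' M' ι' lam' T'} {o : Ref 𝔉} {o' : Ref 𝔊}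
  {r n m k : ℕ} {d : ℤ}

theorem TT_eq (h : 𝔉.OK) (hk : 6 ≤ k) {f : o.C r k → o.Y n m k} (hf : RepF (𝔉.eq0 r n m) f)
    (y : Pnt o r) : TT k f y = (bd o).FF 𝔉.F0.toPre (Fs 𝔉 y.t) k (uy y) := by
  have a := adj_rem h
  have hg := hf.1.sub (a.sm_f0 (o := o) (n := n) (m := m))
  have dd : ∀ {g : o.C r k → o.Y n m k}, ContDiffOn ℝ ∞ g (o.U r k) →
      HasFDerivAt g (fderiv ℝ g (y.pt k)) (y.pt k) := fun hg => ((hg.contDiffAt
    ((Map77.isOpen_U h).mem_nhds (pt_mem y))).differentiableAt (by simp)).hasFDerivAt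
  have v : ∀ z : Pnt o r, 𝔉.F0.val _ _ (f (z.pt k) - f0 o (Fs 𝔉) r n m k (z.pt k)).1 =
      eD n m (bs z) ∧ 𝔉.F0.val _ _ (f (z.pt k) - f0 o (Fs 𝔉) r n m k (z.pt k)).2.1 = eC n m (bs z) ∧
      (f (z.pt k) - f0 o (Fs 𝔉) r n m k (z.pt k)).2.2 = 0 := fun z => by
    obtain ⟨h1, h2, h3⟩ := a.val_f0 (n := n) (m := m) hk z
    refine ⟨?_, ?_, ?_⟩
    · rw [Prod.fst_sub, val_sub, h1, (hf.2 z).D]; exact sub_sub_cancel _ _
    · rw [Prod.snd_sub, Prod.fst_sub, val_sub, h2, (hf.2 z).C]; exact sub_sub_cancel _ _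
    · rw [Prod.snd_sub, Prod.snd_sub, h3, sub_zero]; exact Prod.ext (hf.2 z).S (hf.2 z).R
  have q := (𝔉.F0.dense_toH (k + 1) (bd o).pC).equalizer (hg.continuousOn.comp_continuous
    (f := fun x => y.pt k + sC' o r k y.t x) (by fun_prop) fun x => by
      show y.t + (sC' o r k y.t x).2.2.2 ∈ 𝔉.Q
      rw [sC'_z, Prod.snd_zero, add_zero]; exact y.ht)
    (continuous_const (y := f (y.pt k) - f0 o (Fs 𝔉) r n m k (y.pt k))) (funext fun u => ?_)
  · have d1 := HasFDerivAt.comp (g := fun v => f v - f0 o (Fs 𝔉) r n m k v) 0 (by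
      rw [map_zero, add_zero]; exact (dd hf.1).sub (dd a.sm_f0))
      (((sC' o r k y.t).hasFDerivAt (x := 0)).const_add (y.pt k))
    have d2 := fun x => sub_eq_zero.1 (DFunLike.congr_fun ((q ▸ d1 :).unique
      (hasFDerivAt_const _ _)) x)
    ext1 x
    rw [(a.hy o y.ht).FF_eq (cb_uy h y)]
    exact congrArg (_ + iH2 _ k _ _ ·) (((congrArg _ (d2 x)).trans
      (congrArg _ (a.fderiv_f0 hk y x))).trans (sY_jY _))
  obtain ⟨z, h1, h2, -⟩ := exists_add h (by omega : 3 ≤ k) y u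
  have z1 : z.z = y.z := (congrArg (·.2.2.1) h2).trans (add_zero _)
  have e : bs z = bs y := by simp only [bs, h1, z1]
  simp only [comp_apply, ← h2]
  exact Y_ext h (by omega) ((v z).1.trans (e ▸ (v y).1.symm)) ((v z).2.1.trans
    (e ▸ (v y).2.1.symm)) ((v z).2.2.trans (v y).2.2.symm)

/-- the index of the unperturbed equations is the index of the gauge fixed linearisation -/
theorem idx_ff (h : 𝔉.OK) (hk : 6 ≤ k) {y : Pnt o r} (H : Idx k (𝔉.eq0 r n m) y d) :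
    Fr ((bd o).FF 𝔉.F0.toPre (Fs 𝔉 y.t) k (uy y)) d :=
  let ⟨_, hf, H⟩ := H
  TT_eq h hk hf y ▸ (lop_iff h y).1 H

/-- **equivalent points have the same index** -/
theorem idx_iso {n' m' : ℕ} {y : Pnt o r} {y' : Pnt o' r} (h : 𝔉.OK) (h' : 𝔊.OK) (hk : 6 ≤ k)
    (g : LG 𝔉.B (𝔉.G y.t) 𝔊.B (𝔊.G y'.t) 𝔉.Om φ U v)
    (p : PT (Fs 𝔉 y.t) (Fs 𝔊 y'.t) 𝔉.Om 𝔊.Om φ ψ U) (sp : ∀ x ∈ 𝔉.Om, x ∈ 𝔉.Om' ↔ φ x ∈ 𝔊.Om')
    {u : M → CL o.m.V o'.m.V} {ζ : Circle} (e : CEq (𝔉.G y.t).F y.cfg y'.cfg 𝔉.Om φ U v u ζ)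
    {d' : ℤ} (H : Idx k (𝔉.eq0 r n m) y d) (H' : Idx k (𝔊.eq0 r n' m') y' d') : d = d' :=
  (ff_iso h h' g p sp e (idx_ff h hk H)).unique (idx_ff h' hk H')

end Crest.Agent.X212.Nat27
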