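import Crest.Agent.X212.Exc36.Gen
import Crest.Agent.X212.Fex7.Job
import Crest.Agent.X212.Fex7.Iso

/-! F-EXC (helper27), part A: cells and parameters of the face; the interface `LN`. -/

set_option autoImplicit false
set_option linter.unusedSectionVars false
noncomputable section
open scoped Manifold ContDiff Topology
open Set Function Filter Classical

namespace Crest.Agent.X212.Nat27.Ex
open An M G75 Jb7 Ins26 Nd18 Eqv71 Exc36
open An.Job (Sol)
open Br55 (CN)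

variable {κ lam : Type} [Fintype κ] [Fintype lam] [DecidableEq lam] {Lm : LM κ lam}
  {y : G75.YD κ lam} {S : Scene Lm} {t : TD y S} {N : ND (yY y).M (lam ⊕ lam)} {n : ℕ} {D : S.Dat}
  (F : Pr t N n D) (c : Cn S.L S.A) (d : ℕ)

variable (t D) in
/-- the half on the side `b` -/
abbrev Ob (b : Bool) : Set (D.W.Z (cA t)).M := D.W.un (cA t) (sdP t (cA t) b)

/-- the base -/
abbrev BB (i : S.L) := (D.Λ i).B F.m (cA t)

/-- the geometry -/
abbrev GG (i : S.L) (s : S.A ⊕ Unit → ℝ) := (D.Λ i).G F.m (cA t) (F.Θ s)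

variable (t D) in
/-- configurations -/
abbrev CF (r : ℕ) : Type := Cfg (D.W.Z (cA t)).M (Option κ) (lam ⊕ lam) r

/-- the cuts -/
abbrev kk (i : S.L) (l : S.ls) : Cut (D.W.Z (cA t)).M (lam ⊕ lam) :=
  (Tp.of (D.W.φ (cA t)).toPartialEquiv fun x => Line51.rl ((D.Λ i).v F.m (cA t) x)).cut (S.ct i l)

/-- the end on the side `b` -/
def KK (i : S.L) {p : Prm S.A} {b : Bool} (ha : Act F.m (cA t) t.a (some b) p) :
    Nk (yD y) (BB F i) ((D.Λ i).G F.m (cA t) p) :=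
  Ink3.nk (S := F.x0) (D.Λ i) (y.N.cy_ok y.a) (fun _ => F.iso i) ha

/-- parameters of the face -/
structure FP (i : S.L) (σ : Finset S.A) (s : S.A ⊕ Unit → ℝ) : Prop where
  ne : c i σ ≠ 0
  cell : s ∈ Job.cl (cel σ none)
  inf : Sys.inf (F.Θ s).2 = (cA t).1

variable (t) in
/-- parameters that agree on the side `b` -/
def Ag (b : Bool) (i : S.L) (s : S.A ⊕ Unit → ℝ) (i' : S.L) (s' : S.A ⊕ Unit → ℝ) : Prop :=
  (b = true → i = i') ∧ ∀ x, t.Sd b x → s (.inl x) = s' (.inl x)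

/-- the hypotheses -/
structure Hy : Prop where
  hy : y.OK
  ht : ∃ R, t.OK R c
  cn : CN S d c
  hF : ∃ T, F.OK c d T

/-- **the interface**: transfer between lines and parameters over the halves -/
structure LN (q : F.Wi →₀ ℝ) (v : S.L → S.L → (D.W.Z (cA t)).M → En (lam ⊕ lam)) : Prop where
  clo : IsClopen (Ob t D false)
  cpl : Ob t D true = (Ob t D false)ᶜ
  cut : ∀ i l, (kk F i l).supp ⊆ Ob t D true
  kt : ∀ {b i σ s i' σ' s'}, FP F c i σ s → FP F c i' σ' s' → Ag t b i s i' s' →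
    KT (BB F i) (GG F i s) (BB F i') (GG F i' s') (Ob t D b) (Ob t D b) id id (PP (BB F i)) (v i i')
  v0 : ∀ i, v i i = (BB F i).l
  v1 : ∀ i i', c i ≠ 0 → c i' ≠ 0 → ∀ x ∈ Ob t D false, v i' i x = trn (v i i' x)
  v2 : ∀ i i' i'', c i ≠ 0 → c i' ≠ 0 → c i'' ≠ 0 → ∀ x ∈ Ob t D false,
    v i i'' x = v i' i'' x ∘L v i i' x
  lim : ∀ {b i σ s i' σ' s' r r'} {x : CF t D r} {x' : CF t D r'} {u β ζ l ha ha'}, FP F c i σ s →
    FP F c i' σ' s' → Ag t b i s i' s' → Ad0 x (BB F i) (GG F i s) → Ad0 x' (BB F i') (GG F i' s') →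
    HE (GG F i s).F (BB F i) (Ob t D b) (v i i') x x' u → (yD y).Adm β →
    (KK F i' (p := F.Θ s') (b := b) ha').Lim x' β ζ l → (KK F i (p := F.Θ s) (b := b) ha).Lim x β ζ l
  rtL : ∀ {i σ s i' σ' s' m k k' x x' u}, FP F c i σ s → FP F c i' σ' s' → Ag t false i s i' s' →
    HP (Ob t D false) (BB F i) (BB F i') (GG F i s) (GG F i' s') (v i i') x x' u →
    (∀ j, x'.z (Pr.eL m k' j) = x.z (Pr.eL m k j)) → RT (Ob t D false) (BB F i) x x' u
      ((F.J c d i m k).τ (cA t) q s) ((F.J c d i' m k').τ (cA t) q s')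
  rtR : ∀ {i σ s σ' s' m m' k x x' u}, FP F c i σ s → FP F c i σ' s' → Ag t true i s i s' →
    HP (Ob t D true) (BB F i) (BB F i) (GG F i s) (GG F i s') (v i i) x x' u →
    RT (Ob t D true) (BB F i) x x' u ((F.J c d i m k).τ (cA t) q s) ((F.J c d i m' k).τ (cA t) q s') ∧
    (∀ ρ, ((F.J c d i m' k).τ (cA t) q s').S x' (Pr.eR k ρ) =
      ((F.J c d i m k).τ (cA t) q s).S x (Pr.eR k ρ)) ∧
    ∀ l a, (kk F i l).Sol (BB F i) (GG F i s).F ((F.J c d i m k).σc (cA t) q s l) x a →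
      (kk F i l).Sol (BB F i) (GG F i s').F ((F.J c d i m' k).σc (cA t) q s' l) x'
        (Cnt93.Rh (kk F i l) (kk F i l) (BB F i) (BB F i) u 1 a)
  dead : ∀ {i σ s m} {k : Fin (n + 1)} x (ρ : Fin n), FP F c i σ s → (k : ℕ) ≤ ρ →
    ((F.J c d i m k).τ (cA t) q s).S x ρ = q (F.wD ρ) * x.z (Fin.natAdd (m - k + 1) ρ)

variable {F c d} {i i' : S.L} {σ σ' : Finset S.A} {s s' : S.A ⊕ Unit → ℝ} {x : S.A} {b : Bool}

/-! ### cells -/

theorem sd_dj (h : t.Sd false x) : ¬t.Sd true x := fun k =>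
  let ⟨_, hz⟩ := (S.M.sys.w x).ne false
  (S.M.sys.w t.a).not_mem_sd (h hz.1) (k hz.1)

theorem mem_sd : x ∈ t.sd b σ ↔ x ∈ σ ∧ t.Sd b x := Finset.mem_filter

theorem Ag.symm (h : Ag t b i s i' s') : Ag t b i' s' i s :=
  ⟨fun e => (h.1 e).symm, fun x k => (h.2 x k).symm⟩

theorem Ag.trans {i'' s''} (h : Ag t b i s i' s') (k : Ag t b i' s' i'' s'') : Ag t b i s i'' s'' :=
  ⟨fun e => (h.1 e).trans (k.1 e), fun x j => (h.2 x j).trans (k.2 x j)⟩

theorem FP.ne' (h : FP F c i σ s) : c i ≠ 0 := fun e => h.ne (by rw [e]; rfl)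

theorem FP.mem (h : FP F c i σ s) : cel σ none ∈ cls c i := ⟨σ, none, σ, rfl, nofun, h.ne, subset_rfl⟩

variable (t) in
/-- the left part of `s` and the right part of `s'` -/
def mix (s s' : S.A ⊕ Unit → ℝ) : S.A ⊕ Unit → ℝ :=
  Sum.elim (fun x => if t.Sd false x then s (.inl x) else s' (.inl x)) fun _ => 1

theorem ag_mix : Ag t false i' (mix t s s') i s ∧ Ag t true i' (mix t s s') i' s' :=
  ⟨⟨nofun, fun _ h => if_pos h⟩, fun _ => rfl, fun _ h => if_neg fun k => sd_dj k h⟩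

namespace Hy
variable (H : Hy F c d)
include H

theorem a_fz : t.a ∈ S.fz := H.ht.choose_spec.fz.1

theorem hy7 : Fex7.Hy F c d := ⟨H.cn, H.a_fz, H.hF.choose_spec.T.2, H.hF.choose_spec.mem⟩

theorem cyl : t.a ∈ cylW (cA t) := ⟨rfl, (H.cn.ok.fz _ H.a_fz).1⟩

theorem side (h : c i σ ≠ 0) (hx : x ∈ σ) : t.Sd false x ∨ t.Sd true x := by
  have := S.M.con
  obtain ⟨h1, h2⟩ := H.cn.ok.cell i σ (H.cn.cl.mem i σ h).1
  obtain ⟨b, k⟩ := Wall.exists_side (h1 (.inr H.a_fz) (.inl hx)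
    fun e => Finset.disjoint_left.1 h2 hx (e ▸ H.a_fz))
  cases b
  exacts [.inl k, .inr k]

theorem cell_ext (h : c i σ ≠ 0) (h' : c i' σ' ≠ 0) (e : ∀ b, t.sd b σ = t.sd b σ') : σ = σ' :=
  have k : ∀ {i i' σ σ'}, c i σ ≠ 0 → c i' σ' ≠ 0 → (∀ b, t.sd b σ = t.sd b σ') → σ ⊆ σ' :=
    fun h _ e x hx => (H.side h hx).elim (fun j => (mem_sd.1 (e _ ▸ mem_sd.2 ⟨hx, j⟩)).1)
      fun j => (mem_sd.1 (e _ ▸ mem_sd.2 ⟨hx, j⟩)).1
  (k h h' e).antisymm (k h' h fun b => (e b).symm)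

theorem card (h : c i σ ≠ 0) : (t.sd false σ).card + (t.sd true σ).card = d := by
  rw [← (H.cn.cl.mem i σ h).2.1, ← Finset.card_union_of_disjoint (Finset.disjoint_left.2
    fun _ a b => sd_dj (mem_sd.1 a).2 (mem_sd.1 b).2)]
  refine congrArg _ (Finset.ext fun x => ?_)
  rw [Finset.mem_union, mem_sd, mem_sd, ← and_or_left]
  exact and_iff_left_of_imp (H.side h)

theorem inf_iff (h : c i σ ≠ 0) (hs : s ∈ Job.cl (cel σ none)) : Sys.inf (F.Θ s).2 = (cA t).1 ↔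
    (∀ x ∈ hard S ∅, s (.inl x) ≠ 1) ∧ s (.inr ()) = 1 := by
  have k := H.hy7.dm_cl h hs
  rw [(H.hy7.par k).2, (Fex7.th_par H.cn.ok H.a_fz k).2]
  have na : t.a ∉ hard S ∅ := fun j => Fex7.not_fz H.cn.ok j H.a_fz
  refine ⟨fun e => ⟨fun x hx j => na ?_, ?_⟩, fun e => Set.ext fun x => ⟨fun j => ?_, fun j => ?_⟩⟩
  · rwa [Option.some.inj (e.le (.inl ⟨hx, j⟩) : some t.a = some x)]
  · exact (e.ge (rfl : some t.a = some t.a)).elim (fun j => (na j.1).elim) (·.2)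
  · exact j.elim (fun j => (e.1 x j.1 j.2).elim) fun j => congrArg some j.1.symm
  · exact .inr ⟨(Option.some.inj j).symm, e.2⟩

theorem fc (h : FP F c i σ s) : Pr.Fc σ s := ⟨h.cell, ((H.inf_iff h.ne h.cell).1 h.inf).2⟩

theorem par_ext (h : FP F c i σ s) (h' : FP F c i σ s') (e : ∀ b, Ag t b i s i s') : s = s' := by
  funext a
  rcases a with x | _
  · by_cases hx : x ∈ σ
    · exact (H.side h.ne hx).elim ((e _).2 x) ((e _).2 x)
    · rw [Ins30.sp_zero h.cell.1 hx, Ins30.sp_zero h'.cell.1 hx]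
  · exact (H.fc h).2.trans (H.fc h').2.symm

theorem exists_mix (h : FP F c i σ s) (h' : FP F c i' σ' s') : ∃ τ, FP F c i' τ (mix t s s') ∧
    t.sd false τ = t.sd false σ ∧ t.sd true τ = t.sd true σ' := by
  have e := H.ht.choose_spec.exc i σ i' σ' h.ne h'.ne
  generalize hτ : (t.sd false σ ∪ t.sd true σ' :) = τ at e
  have m : ∀ x, x ∈ τ ↔ x ∈ σ ∧ t.Sd false x ∨ x ∈ σ' ∧ t.Sd true x := fun x => by
    rw [← hτ, Finset.mem_union, mem_sd, mem_sd]
  have cl : mix t s s' ∈ Job.cl (cel τ none) := by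
    refine ⟨fun a b k => ?_, fun a => ?_⟩
    · rcases a with x | _
      swap; · cases k
      have hx : x ∉ τ := fun j => by simp [cel, j] at k
      obtain rfl : false = b := by simpa [cel, hx] using k
      by_cases j : t.Sd false x
      · exact (if_pos j).trans (Ins30.sp_zero h.cell.1 fun o => hx ((m x).2 (.inl ⟨o, j⟩)))
      · exact (if_neg j).trans (Ins30.sp_zero h'.cell.1 fun o => hx ((m x).2
          (.inr ⟨o, (H.side h'.ne o).resolve_left j⟩)))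
    · rcases a with x | _
      · simp only [mix, Sum.elim_inl]
        split_ifs
        exacts [h.cell.2 _, h'.cell.2 _]
      · exact ⟨zero_le_one, le_rfl⟩
  refine ⟨τ, ⟨e, cl, (H.inf_iff e cl).2 ⟨fun x hx => ?_, rfl⟩⟩, Finset.ext fun x => ?_,
    Finset.ext fun x => ?_⟩
  · simp only [mix, Sum.elim_inl]
    split_ifs
    exacts [((H.inf_iff h.ne h.cell).1 h.inf).1 x hx, ((H.inf_iff h'.ne h'.cell).1 h'.inf).1 x hx]
  · rw [mem_sd, mem_sd, m]
    exact ⟨fun j => ⟨j.1.elim (·.1) fun o => (sd_dj j.2 o.2).elim, j.2⟩, fun j => ⟨.inl j, j.2⟩⟩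
  · rw [mem_sd, mem_sd, m]
    exact ⟨fun j => ⟨j.1.elim (fun o => (sd_dj o.2 j.2).elim) (·.1), j.2⟩, fun j => ⟨.inr j, j.2⟩⟩

theorem ok (h : c i ≠ 0) (m : ℕ) (k : Fin (n + 1)) : (F.J c d i m k).OK :=
  (H.hF.choose_spec.J i h m k).1

theorem ov (h : FP F c i σ s) (m : ℕ) (k : Fin (n + 1)) :
    (F.J c d i m k).Ov (cel σ none) (cA t) s := ⟨Job.cl_dom _ h.cell, h.inf⟩

end Hy

end Crest.Agent.X212.Nat27.Ex
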