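import Crest.Agent.X212.Nat27.ExA
import Crest.Agent.X212.Lns95.Van

/-! F-EXC (helper27), part B: normal face objects and the relations of their halves. -/

set_option autoImplicit false
set_option linter.unusedSectionVars false
noncomputable section
open scoped Manifold ContDiff Topology
open MeasureTheory Set Function Filter Classical

namespace Crest.Agent.X212.Nat27.Ex
open An M G75 Jb7 Ins26 Nd18 Eqv71 Exc36
open An.Job (Sol)

/-! ### coordinates -/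

/-- the coordinates, extended by zero -/
def zf {r : ℕ} (z : EuclideanSpace ℂ (Fin r)) (j : ℕ) : ℂ := if h : j < r then z ⟨j, h⟩ else 0

section zf
variable {r r' : ℕ} {z : EuclideanSpace ℂ (Fin r)} {z' : EuclideanSpace ℂ (Fin r')}

theorem zf_val (j : Fin r) : zf z j = z j := dif_pos j.2

theorem norm_zf (h : zf z' = zf z) : ‖z'‖ = ‖z‖ := by
  have k : ∀ {r} (z : EuclideanSpace ℂ (Fin r)), ‖z‖ = √(∑' j, ‖zf z j‖ ^ 2) := fun {r} z => by
    rw [EuclideanSpace.norm_eq, tsum_eq_sum (s := Finset.range r) fun j hj => by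
      rw [zf, dif_neg (by simpa using hj), norm_zero, sq, mul_zero],
      ← Fin.sum_univ_eq_sum_range (fun j => ‖zf z j‖ ^ 2)]
    simp only [zf_val]
  rw [k, k, h]

theorem exists_zf (h : ∀ j, r' ≤ j → zf z j = 0) : ∃ z' : EuclideanSpace ℂ (Fin r'), zf z' = zf z :=
  ⟨WithLp.toLp 2 fun j => zf z j, funext fun j => by
    by_cases k : j < r'
    exacts [dif_pos k, (dif_neg k).trans (h j (not_lt.1 k)).symm]⟩

end zf

variable {κ lam : Type} [Fintype κ] [Fintype lam] [DecidableEq lam]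

/-! ### casts -/

section cast
variable {Wi : Type} {T T' : Xs Wi κ lam} (e : T = T')

theorem cv_cv (β : YC T'.Y.M κ (lam ⊕ lam)) : cv e (cv e.symm β) = β := by subst e; rfl

theorem crit_cv (β : YC T.Y.M κ (lam ⊕ lam)) : T'.N.Crit T'.D (cv e β) ↔ T.N.Crit T.D β := by
  subst e; rfl

theorem brk0 {q β ζ β' ζ' k j} (h : T.N.Brk T.D q β ζ β' ζ' k j) (e : j = 0) :
    β = β' ∧ ζ = ζ' ∧ k = 0 := by
  cases h
  exacts [⟨rfl, rfl, rfl⟩, (Nat.succ_ne_zero _ e).elim, (Nat.succ_ne_zero _ e).elim]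

end cast

variable {Lm : LM κ lam} {y : G75.YD κ lam} {S : Scene Lm} {t : TD y S}
  {N : ND (yY y).M (lam ⊕ lam)} {n : ℕ} {D : S.Dat} {F : Pr t N n D} {c : Cn S.L S.A} {d : ℕ}
  {C : N.CD (yD y)} {lv : C.C → ℝ} {E : Set (ℕ × Fin (n + 1))} {q : F.Wi →₀ ℝ}
  {v : S.L → S.L → (D.W.Z (cA t)).M → En (lam ⊕ lam)} {b : Bool}

theorem lim_cv {i p r ζ l} (ha : Act F.m (cA t) t.a (some b) p) {x : CF t D r} (β) :
    (KK F i ha).Lim x (cv (F.xs_a i) β) ζ l ↔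
      ((F.xg i).K (D.Λ i) F.m (cA t) t.a (some b) p ha).Lim x β ζ l := by
  have k : ∀ {T T' : Ink3.XG1 F.Wi (S.N i) t.a} (e : T = T') (β : YC T.xs.Y.M κ (lam ⊕ lam)),
      (Ink3.nk (D.Λ i) T'.ok.1 T'.iso ha).Lim x (cv (congrArg Ink3.XG1.xs e) β) ζ l ↔
      (Ink3.nk (D.Λ i) T.ok.1 T.iso ha).Lim x β ζ l := fun e _ => by subst e; rfl
  exact k (Ink3.XG.upd_self _ _ _) β

theorem eq_a {x : S.A} (h : x ∈ (cA t).1) : x = t.a := (Option.some.inj h).symm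

/-- the direction of the end -/
abbrev lE (b : Bool) : Filter ℝ := bif b then atBot else atTop

theorem isEnd (b : Bool) : Bki64.IsEnd (lE b) ∧ (lE b).NeBot := by
  cases b
  exacts [⟨Bki64.isEnd_top, atTop_neBot⟩, ⟨Bki64.isEnd_bot, atBot_neBot⟩]

variable (F c d C E q) in
/-- normal face objects: the limit is the chosen critical point -/
structure No : Type where
  m : ℕ
  k : Fin (n + 1)
  he : (m, k) ∈ E
  i : S.L
  σ : Finset S.A
  h : c i σ ≠ 0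
  x : (F.J c d i m k).Obc (cA t)
  sol : Sol (cel σ none) q x
  ti : x.Tight
  o : C.C
  nb : ∀ b, cv (F.xs_a i) (x.β t.a b) = C.β o ∧ x.ζ t.a b = 1

variable (F c d C lv E q v) in
/-- all hypotheses -/
structure Al : Prop extends Hy F c d, LN F c d q v where
  dp : ∀ ρ, q (F.wD ρ) ≠ 0
  en : ∀ e ∈ E, ↑e.2 ≤ e.1 ∧ F.FpA c d C lv e.1 e.2 q

variable (v b) in
/-- the halves on the side `b` are equivalent -/
def Rel (u u' : No F c d C E q) : Prop :=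
  t.sd b u.σ = t.sd b u'.σ ∧ Ag t b u.i u.x.s u'.i u'.x.s ∧ ∃ g,
    HE (GG F u.i u.x.s).F (BB F u.i) (Ob t D b) (v u.i u'.i) u.x.x u'.x.x g ∧
    (b = false → u.m = u'.m ∧ zf u'.x.x.z = zf u.x.x.z) ∧ (b = true → (u.k : ℕ) = u'.k ∧ ∀ l,
      (kk F u.i l).Eqv (kk F u'.i l) (BB F u.i) (BB F u'.i) g (u.x.ψ l) (u'.x.ψ l))

namespace No
variable (u : No F c d C E q)

theorem fp : FP F c u.i u.σ u.x.s := ⟨u.h, u.sol.cell, u.sol.inf⟩

theorem ad : Ad0 u.x.x (BB F u.i) (GG F u.i u.x.s) := ad0 u.sol.sol.toAdm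

end No

theorem adm_β (o : C.C) : (yD y).Adm (C.β o) := Dgr80.adm_crit (C.crit o)

namespace Al
variable (H : Al F c d C lv E q v) (u u' u'' : No F c d C E q)
include H

theorem yok : (yD y).OK := (y.N.cy_ok y.a).yd

theorem opn : IsClopen (Ob t D b) := by
  cases b
  exacts [H.clo, H.cpl ▸ H.clo.compl]

theorem bd : ∃ C, ∀ x, ‖u.x.x.Φ x‖ ≤ C := u.sol.bdd (H.ok u.fp.ne' _ _) u.fp.mem

theorem act {i σ s} (h : FP F c i σ s) (b : Bool) : Act F.m (cA t) t.a (some b) (F.Θ s) :=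
  ⟨H.cyl.2, (H.ok h.ne' 0 0).memBr h.mem (H.ov h 0 0), (H.ok h.ne' 0 0).memO h.mem (H.ov h 0 0), rfl⟩

theorem lm (b : Bool) : (KK F u.i (H.act u.fp b)).Lim u.x.x (C.β u.o) 1 (lE b) := by
  rw [← (u.nb b).1, ← (u.nb b).2]
  exact (lim_cv _ _).2 (u.sol.lim _ _ (H.act u.fp b))

theorem typ : ¬C.fx u.o ∧ 6 * u.x.kap (Ob t D false) + 2 * u.m + (t.sd false u.σ).card = lv u.o := by
  obtain ⟨o, h1, h2⟩ := (H.en _ u.he).2 u.i u.σ u.h u.x u.sol u.ti
  rw [(u.nb false).1] at h1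
  exact C.sep _ _ h1 ▸ h2

theorem zd {j : ℕ} (hj : u.m < j) : zf u.x.x.z j = 0 := by
  have hk : (u.k : ℕ) ≤ u.m := (H.en _ u.he).1
  refine dite_eq_right_iff.2 fun h => ?_
  have := (H.dead (m := u.m) (k := u.k) u.x.x ⟨j - (u.m - u.k + 1), by omega⟩ u.fp
    (by simp only; omega)).symm.trans (u.sol.sol.S _)
  rw [← (mul_eq_zero.1 this).resolve_left (Complex.ofReal_ne_zero.2 (H.dp _))]
  exact congrArg _ (Fin.ext (by simp only [Fin.val_natAdd]; omega))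

theorem unc (l : S.ls) : l ∈ u.x.H := by
  rw [u.sol.H_eq u.ti.1]
  refine disjoint_left.2 fun x hx k => ?_
  obtain ⟨h1, h2⟩ := Fex7.a_h H.hy H.ht.choose_spec
  have := S.M.con
  obtain ⟨a, ha, k⟩ := mem_iUnion₂.1 k
  rw [eq_a ha] at k
  exact (S.M.sys.w t.h).not_mem_sd (h1 ((S.M.sys.w t.a).core_subset k))
    (H.ht.choose_spec.ls l l.2 (.inl hx)).1

theorem k0 : ∑ a, (cylW (cA t)).indicator u.x.k a = 0 :=
  Finset.sum_eq_zero fun a _ => indicator_apply_eq_zero.2 fun ha =>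
    (brk0 (u.sol.brk a ha) (u.ti.2 a ha)).2.2

theorem lev : u.x.kap (Ob t D false) + u.x.kap (Ob t D true) = kz S u.i (u.m - u.k : ℕ) (-d) := by
  have k := u.sol.lev
  rw [u.ti.1, H.k0, Nat.cast_zero, add_zero, add_zero] at k
  rw [H.cpl]
  exact (integral_add_compl H.clo.2.measurableSet u.sol.int).trans k

section v
variable {i i' i'' : S.L} (h : c i ≠ 0) (h' : c i' ≠ 0) (e : b = true → i = i')
include h h' e

theorem w1 : ∀ x ∈ Ob t D b, v i' i x = trn (v i i' x) := by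
  cases b
  · exact H.v1 i i' h h'
  · obtain rfl := e rfl
    exact fun x _ => by rw [H.v0, trn_of_sym (((D.Λ i).B_ok _ _).lsym x)]

theorem w2 (h'' : c i'' ≠ 0) (e' : b = true → i' = i'') :
    ∀ x ∈ Ob t D b, v i i'' x = v i' i'' x ∘L v i i' x := by
  cases b
  · exact H.v2 i i' i'' h h' h''
  · obtain rfl := e rfl
    obtain rfl := e' rfl
    exact fun x _ => by rw [H.v0]; exact (((D.Λ i).B_ok _ _).lidem x).symm

end v

theorem krel {i i' : S.L} (e : i = i') (l) : (kk F i l).Rel (kk F i' l) (Ob t D true) id (v i i') := by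
  subst e
  rw [H.v0]
  exact Cnt93.rel_refl ((D.Λ i).B_ok _ _) (H.cut i l)

theorem refl : Rel v b u u :=
  have g := H.kt (b := b) u.fp u.fp ⟨fun _ => rfl, fun _ _ => rfl⟩
  ⟨rfl, ⟨fun _ => rfl, fun _ _ => rfl⟩, _, he_refl g.hB g.hG H.opn.2 u.ad fun _ _ => by rw [H.v0],
    fun _ => ⟨rfl, rfl⟩, fun _ => ⟨rfl, fun _ => Cnt93.eqv_refl u.ad.ok _⟩⟩

variable {u u' u''}

theorem symm (h : Rel v b u u') : Rel v b u' u := by
  obtain ⟨h1, h2, g, h3, h4, h5⟩ := h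
  have k := H.kt u.fp u'.fp h2
  refine ⟨h1.symm, h2.symm, _, he_symm k.toKG u.ad u'.ad h3 (H.w1 u.fp.ne' u'.fp.ne' h2.1),
    fun e => ⟨(h4 e).1.symm, (h4 e).2.symm⟩, fun e => ⟨(h5 e).1.symm, fun l => ?_⟩⟩
  subst e
  exact Cnt93.eqv_symm (ψ := id) (k.toLG.of_ceq (ad_nz u.ad) (ad_nz u'.ad) h3)
    (H.krel (h2.1 rfl) l) rfl ((h5 rfl).2 l)

theorem trans (h : Rel v b u u') (h' : Rel v b u' u'') : Rel v b u u'' := by
  obtain ⟨h1, h2, g, h3, h4, h5⟩ := h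
  obtain ⟨k1, k2, g', k3, k4, k5⟩ := h'
  refine ⟨h1.trans k1, h2.trans k2, _, he_trans (H.kt u.fp u'.fp h2).toKG u.ad u'.ad h3
    (H.kt u'.fp u''.fp k2).toKG u''.ad k3 rfl (H.w2 u.fp.ne' u'.fp.ne' h2.1 u''.fp.ne' k2.1),
    fun e => ⟨(h4 e).1.trans (k4 e).1, (k4 e).2.trans (h4 e).2⟩,
    fun e => ⟨(h5 e).1.trans (k5 e).1, fun l => ?_⟩⟩
  subst e
  exact Cnt93.eqv_trans (φ := id) ((H.krel (h2.1 rfl) l).γ 0 0)
    (k3.m.J _ (Cnt93.γ_mem (H.krel (k2.1 rfl) l) 0 0)) u''.ad.ok.Jsq ((h5 rfl).2 l) ((k5 rfl).2 l)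

theorem col (h : Rel v b u u') : u.o = u'.o := by
  obtain ⟨-, h2, g, h3, -⟩ := h
  have := (isEnd b).2
  obtain ⟨_, k⟩ := lim_uniq (isEnd b).1 u.ad (adm_β _) (adm_β _) (H.lm u b)
    (H.lim u.fp u'.fp h2 u.ad u'.ad h3 (adm_β _) (H.lm u' b))
  exact C.sep _ _ (k.eqv H.yok (adm_β _) (adm_β _))

end Al

end Crest.Agent.X212.Nat27.Ex
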