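import Crest.Agent.X212.Nat27.ExB

/-! F-EXC (helper27), part C: gluing, isomorphism classes, `ExcP` from the interface. -/

set_option autoImplicit false
set_option linter.unusedSectionVars false
noncomputable section
open scoped Manifold ContDiff Topology
open MeasureTheory Set Function Filter Classical

namespace Crest.Agent.X212.Nat27.Ex
open An M G75 Jb7 Ins26 Nd18 Eqv71 Exc36
open An.Job (Sol)

theorem quot_equiv {α β : Type} {r : α → α → Prop} (f : α → β) (hf : Surjective f)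
    (h : ∀ a a', r a a' ↔ f a = f a') : Nonempty (Quot r ≃ β) :=
  ⟨.ofBijective (Quot.lift f fun a b k => (h a b).1 k)
    ⟨by rintro ⟨a⟩ ⟨b⟩ k; exact Quot.sound ((h a b).2 k),
      fun b => let ⟨a, k⟩ := hf b; ⟨Quot.mk _ a, k⟩⟩⟩

variable {κ lam : Type} [Fintype κ] [Fintype lam] [DecidableEq lam]
  {Lm : LM κ lam} {y : G75.YD κ lam} {S : Scene Lm} {t : TD y S}
  {N : ND (yY y).M (lam ⊕ lam)} {n : ℕ} {D : S.Dat} {F : Pr t N n D} {c : Cn S.L S.A} {d : ℕ}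
  {C : N.CD (yD y)} {lv : C.C → ℝ} {E : Set (ℕ × Fin (n + 1))} {q : F.Wi →₀ ℝ}
  {v : S.L → S.L → (D.W.Z (cA t)).M → En (lam ⊕ lam)}

/-- the class of a normal object -/
def No.cl (u : No F c d C E q) {m k} (e : u.m = m) (e' : u.k = k) : F.Fcl c d m k q :=
  e ▸ e' ▸ ⟨⟨(u.i, u.σ), u.h⟩, Quot.mk _ ⟨u.x, u.sol, u.ti⟩⟩

namespace Al
variable (H : Al F c d C lv E q v)
include H

/-- **gluing** -/
theorem glue {u u' : No F c d C E q} (e : u.o = u'.o) (he : (u.m, u'.k) ∈ E) :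
    ∃ w, Rel v false w u ∧ Rel v true w u' := by
  obtain ⟨τ, p, t1, t2⟩ := H.exists_mix u.fp u'.fp
  obtain ⟨a1, a2⟩ := ag_mix (t := t) (i := u.i) (i' := u'.i) (s := u.x.s) (s' := u'.x.s)
  have g1 := H.kt p u.fp a1
  have g2 := H.kt p u'.fp a2
  obtain ⟨x₀, ad, ⟨g, e1⟩, g', e2⟩ := exists_glue H.clo g1.toKG (H.cpl ▸ g2.toKG) u.ad u'.ad
  rw [← H.cpl] at e2
  have hk : (u'.k : ℕ) ≤ u.m := (H.en _ he).1
  have hk' : (u'.k : ℕ) ≤ u'.m := (H.en _ u'.he).1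
  have hn := u'.k.is_le
  obtain ⟨z, hz⟩ := exists_zf (r' := u.m - u'.k + 1 + n) (z := u.x.x.z) fun j hj => H.zd u (by omega)
  have ax : Ad0 (cw x₀ x₀.Φ z) (BB F u'.i) (GG F u'.i (mix t u.x.s u'.x.s)) :=
    ⟨ad.ok, ad.conn, ad.sm, ad.pos⟩
  have cs : ∀ a, a ∈ Ob t D false ∨ a ∈ Ob t D true := fun a => H.cpl ▸ _root_.em _
  have bx : ∃ C, ∀ a, ‖x₀.Φ a‖ ≤ C := by
    obtain ⟨C₁, h1⟩ := H.bd u
    obtain ⟨C₂, h2⟩ := H.bd u'
    exact ⟨max C₁ C₂, fun a => (cs a).elim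
      (fun k => le_max_of_le_left ((he_norm g1.toKG ad u.ad e1 k).ge.trans (h1 a)))
      fun k => le_max_of_le_right ((he_norm g2.toKG ad u'.ad e2 k).ge.trans (h2 a))⟩
  have P1 : HP _ _ _ _ _ _ u.x.x (cw x₀ x₀.Φ z) _ := ⟨H.kt u.fp p a1.symm, u.ad, ax, H.bd u, bx,
    he_symm g1.toKG ad u.ad e1 (H.w1 p.ne' u.fp.ne' a1.1)⟩
  have P2 : HP _ _ _ _ _ _ u'.x.x (cw x₀ x₀.Φ z) _ := ⟨H.kt u'.fp p a2.symm, u'.ad, ax, H.bd u', bx,
    he_symm g2.toKG ad u'.ad e2 (H.w1 p.ne' u'.fp.ne' a2.1)⟩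
  have R1 := H.rtL (m := u.m) (k := u.k) (k' := u'.k) u.fp p a1.symm P1 fun j =>
    (zf_val _).symm.trans ((congrFun hz j).trans (zf_val (Pr.eL u.m u.k j)))
  obtain ⟨R2, R3, R4⟩ := H.rtR (m := u'.m) (m' := u.m) (k := u'.k) u'.fp p a2.symm P2
  have eq := fun a => (cs a).elim (fun k => P1.sol R1 k ⟨u.sol.sol.D a, u.sol.sol.C a⟩)
    fun k => P2.sol R2 k ⟨u'.sol.sol.D a, u'.sol.sol.C a⟩
  have i1 := he_int P1.g.toKG u.ad ax P1.e u.sol.int.integrableOn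
  have i2 := he_int P2.g.toKG u'.ad ax P2.e u'.sol.int.integrableOn
  have i3 := i1.union i2
  rw [H.cpl, union_compl_self, integrableOn_univ] at i3
  refine ⟨⟨u.m, u'.k, he, u'.i, τ, p.ne, ⟨mix t u.x.s u'.x.s, cw x₀ x₀.Φ z, u'.x.H, fun l =>
    Cnt93.Rh (kk F u'.i l) (kk F u'.i l) _ _ (fun a => trn (g' a)) 1 (u'.x.ψ l), u'.x.β, u'.x.ζ,
    u'.x.k, u'.x.j, u'.x.l⟩, ⟨p.cell, p.inf, ⟨⟨ad.ok, ad.conn, ad.sm, ad.pos, .inr ?_⟩,
    fun a => (eq a).1, fun a => (eq a).2, fun ρ => ?_⟩, u'.sol.sub, fun l hl => R4 l _ (u'.sol.cut l hl),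
    u'.sol.drop, fun a b ha => ?_, u'.sol.crit, u'.sol.brk, i3, ?_⟩, u'.ti, u'.o, u'.nb⟩,
    ⟨t1, a1, g, e1, fun _ => ⟨rfl, hz.symm⟩, nofun⟩,
    H.symm ⟨t2.symm, a2.symm, _, P2.e, nofun, fun _ => ⟨rfl, fun l => ⟨1, Cnt93.coe_Rh
      (P2.g.toLG.of_ceq (ad_nz u'.ad) (ad_nz ax) P2.e) (H.krel rfl l) 1 _⟩⟩⟩⟩
  · exact (norm_zf hz).trans (u.sol.sol.z.resolve_left (by omega))
  · by_cases k : (ρ : ℕ) < u'.k
    · exact (R3 ⟨ρ, k⟩).trans (u'.sol.sol.S _)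
    · refine (H.dead _ ρ p (not_lt.1 k)).trans (mul_eq_zero_of_right _ ((zf_val _).symm.trans
        ((congrFun hz _).trans (H.zd u ?_))))
      simp only [Fin.val_natAdd]
      omega
  · obtain rfl := eq_a ha.2.2.2
    refine (lim_cv ha _).1 ?_
    rw [show cv _ (u'.x.β t.a b) = _ from (u'.nb b).1, show u'.x.ζ t.a b = _ from (u'.nb b).2]
    cases b
    · exact H.lim p u.fp a1 ax u.ad e1 (adm_β _) (e ▸ H.lm u false)
    · exact H.lim p u'.fp a2 ax u'.ad e2 (adm_β _) (H.lm u' true)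
  · have k1 := he_kap P1.g.toKG u.ad ax P1.e
    have k2 := he_kap P2.g.toKG u'.ad ax P2.e
    have k3 := integral_add_compl H.clo.2.measurableSet i3
    have k4 := (H.typ u).2.trans (e ▸ (H.typ u').2.symm)
    have k5 := H.lev u'
    have k6 := (t1 ▸ t2 ▸ H.card p.ne).trans (H.card u'.h).symm
    rw [← H.cpl, k1, k2] at k3
    rw [Nat.add_right_cancel k6] at k4
    replace k3 : _ = u.x.kap (Ob t D false) + u'.x.kap (Ob t D true) := k3.symm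
    refine (congrArg₂ (· + ·) (congrArg₂ (· + ·) k3 (H.k0 u')) (congrArg _ u'.ti.1)).trans ?_
    simp only [kz, Nat.cast_sub hk, Nat.cast_sub hk'] at k5 ⊢
    push_cast at k5 ⊢
    linarith

/-- **classes of normal objects** -/
theorem iso_iff {m k he i σ h x sol ti o nb x' sol' ti' o' nb'} :
    (Rel v false (⟨m, k, he, i, σ, h, x, sol, ti, o, nb⟩ : No F c d C E q)
      ⟨m, k, he, i, σ, h, x', sol', ti', o', nb'⟩ ∧
    Rel v true (⟨m, k, he, i, σ, h, x, sol, ti, o, nb⟩ : No F c d C E q)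
      ⟨m, k, he, i, σ, h, x', sol', ti', o', nb'⟩) ↔ Job.Iso x x' := by
  constructor
  · rintro ⟨⟨-, a1, g, e1, z1, -⟩, -, a2, g', e2, -, c2⟩
    have z : x'.x.z = ((1 : Circle) : ℂ) ^ 2 • x.x.z := by
      rw [Circle.coe_one, one_pow, one_smul]
      exact PiLp.ext fun j => (zf_val j).symm.trans ((congrFun (z1 rfl).2 j).trans (zf_val j))
    have f1 : HE _ _ _ (BB F i).l x.x x'.x g := H.v0 i ▸ e1
    have f2 : HE _ _ (Ob t D false)ᶜ (BB F i).l x.x x'.x g' := H.cpl ▸ H.v0 i ▸ e2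
    refine ⟨H.par_ext ⟨h, sol.cell, sol.inf⟩ ⟨h, sol'.cell, sol'.inf⟩ fun b => by cases b <;> assumption,
      _, 1, ceq_pw H.clo ⟨f1.m, f1.W, f1.Φ, z⟩ ⟨f2.m, f2.W, f2.Φ, z⟩, fun l => ?_⟩
    obtain ⟨η, k⟩ := (c2 rfl).2 l
    have : (kk F i l).x0 ∉ Ob t D false := H.cpl.le (H.cut i l ⟨(0, 0), rfl⟩)
    exact ⟨η, (piecewise_eq_of_notMem _ g g' this).symm ▸ k⟩
  · obtain ⟨s', X, _⟩ := x'
    rintro ⟨rfl, g, ζ, e, f⟩
    have := (isEnd false).2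
    have := (y.M.bn y.a).con
    set u : No F c d C E q := ⟨m, k, he, i, σ, h, x, sol, ti, o, nb⟩
    set u' : No F c d C E q := ⟨m, k, he, i, σ, h, _, sol', ti', o', nb'⟩
    obtain ⟨_, st⟩ := lim_uniq (isEnd false).1 u.ad (adm_β _) (adm_β _) (H.lm u false)
      (lim_pre ((D.Λ i).B_ok _ _) isOpen_univ (subset_univ _) (adm_β _) u.ad u'.ad e (H.lm u' false))
    obtain rfl : o = o' := C.sep _ _ (st.eqv H.yok (adm_β _) (adm_β _))
    obtain ⟨ε, hε⟩ := stb_real H.yok (adm_β _) (H.typ u).1 st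
    rw [one_mul, div_one] at hε
    obtain ⟨e1, e2⟩ := ceq_sgn (B := BB F i) (B' := BB F i) isOpen_univ e hε
    have z : X.z = x.x.z := e1.z.trans (by rw [Circle.coe_one, one_pow, one_smul])
    have r : ∀ b, Rel v b u u' := fun b => ⟨rfl, ⟨fun _ => rfl, fun _ _ => rfl⟩, _,
      (H.v0 i).symm ▸ he_of (Wrd81.ceq_mono e1 (subset_univ _)), fun _ => ⟨rfl, congrArg zf z⟩,
      fun _ => ⟨rfl, fun l => e2 u'.ad.ok.Jsq (f ⟨l, sol.sub (H.unc u l)⟩)⟩⟩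
    exact ⟨r _, r _⟩

/-- **normalisation** -/
theorem exists_no {m k} (he : (m, k) ∈ E) {i σ} (h : c i σ ≠ 0) {x : (F.J c d i m k).Obc (cA t)}
    (sol : Sol (cel σ none) q x) (ti : x.Tight) : ∃ (X : (F.J c d i m k).Obc (cA t)) (o : C.C),
      Sol (cel σ none) q X ∧ X.Tight ∧ Job.Iso X x ∧
        ∀ b, cv (F.xs_a i) (X.β t.a b) = C.β o ∧ X.ζ t.a b = 1 := by
  have p : FP F c i σ x.s := ⟨h, sol.cell, sol.inf⟩
  obtain ⟨o, h1, -⟩ := (H.en _ he).2 i σ h x sol ti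
  have cr := Dgr80.adm_crit ((crit_cv (F.xs_a i) _).2 (sol.crit _ H.cyl false))
  obtain ⟨g, ξ, st⟩ := Dgr80.stb_of_eqv H.yok cr (adm_β o) h1
  obtain ⟨b1, b2, b3⟩ := brk0 (sol.brk _ H.cyl) (ti.2 _ H.cyl)
  have hJ := H.ok p.ne' m k
  have a := ad0 sol.sol.toAdm
  have a' := ad0_phs (ξ * x.ζ t.a false) a
  have r := ceq_refl ((D.Λ i).B_ok _ _) (hJ.G_ok p.mem sol.ov) a isOpen_univ
  have e : CEq _ (phs (ξ * x.ζ t.a false) x.x) x.x univ id _ _ x.x.m.p (ξ * x.ζ t.a false)⁻¹ :=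
    ⟨r.m, r.W, fun z _ => by
      rw [p_Φ a' z]
      simp only [id, cs_mul a.ok.Jsq, ← Circle.coe_mul, inv_mul_cancel, Circle.coe_one, cs_one],
      by simp only [smul_smul, ← mul_pow, ← Circle.coe_mul, inv_mul_cancel, Circle.coe_one, one_pow,
        one_smul]⟩
  have s := sol.re hJ p.mem a' e fun l _ => Cnt93.eqv_refl a.ok (x.ψ l)
  refine ⟨⟨x.s, phs (ξ * x.ζ t.a false) x.x, x.H, x.ψ, update x.β t.a fun _ =>
    cv (F.xs_a i).symm (C.β o), fun _ _ => 1, x.k, x.j, x.l⟩, o, ⟨s.cell, s.inf, s.sol, s.sub, s.cut,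
    s.drop, fun a b ha => ?_, fun a ha b => ?_, fun a ha => ?_, s.int, s.lev⟩, ti,
    ⟨rfl, _, _, e, fun l => Cnt93.eqv_refl a.ok _⟩, fun b => ⟨?_, rfl⟩⟩
  · obtain rfl := eq_a ha.2.2.2
    have k := (lim_cv ha _).2 (s.lim _ b ha)
    have e1 : x.β t.a b = x.β t.a false ∧ x.ζ t.a b = x.ζ t.a false := by
      cases b
      exacts [⟨rfl, rfl⟩, ⟨b1.symm, b2.symm⟩]
    simp only [e1.1, e1.2] at k
    have k' := Dgr80.lim_stb cr (adm_β o) a' st k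
    rw [← mul_assoc, mul_inv_cancel] at k'
    refine (lim_cv ha _).1 ?_
    simp only [update_self, cv_cv]
    exact k'
  · obtain rfl := eq_a ha.1
    refine (crit_cv (F.xs_a i) _).1 ?_
    simp only [update_self, cv_cv]
    exact C.crit o
  · obtain rfl := eq_a ha.1
    simp only [update_self, b3, ti.2 _ H.cyl]
    exact .nil _ _
  · simp only [update_self, cv_cv]

/-- the exchange structure -/
def exch : Exch (No F c d C E q) C.C where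
  m := No.m
  n u := u.k
  col := No.o
  L := ⟨Rel v false, H.refl, H.symm, H.trans⟩
  R := ⟨Rel v true, H.refl, H.symm, H.trans⟩
  P a b := ∃ k : Fin (n + 1), ↑k = b ∧ (a, k) ∈ E
  Lm _ _ h := ⟨(h.2.2.choose_spec.2.1 rfl).1, H.col h⟩
  Rn _ _ h := ⟨(h.2.2.choose_spec.2.2 rfl).1, H.col h⟩
  glue _ _ e := fun ⟨_, h, k⟩ => H.glue e (Fin.ext h ▸ k)

theorem equiv {m k} (he : (m, k) ∈ E) : Nonempty (H.exch.T m k ≃ F.Fcl c d m k q) := by
  refine quot_equiv (fun u => u.1.cl u.2.1 (Fin.ext u.2.2)) ?_ ?_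
  · rintro ⟨⟨⟨i, σ⟩, h⟩, ⟨x, sol, ti⟩⟩
    obtain ⟨X, o, h1, h2, h3, h4⟩ := H.exists_no he h sol ti
    exact ⟨⟨⟨m, k, he, i, σ, h, X, h1, h2, o, h4⟩, rfl, rfl⟩, congrArg (Sigma.mk _) (Quot.sound h3)⟩
  · rintro ⟨⟨m, k, he, i, σ, h, x, sol, ti, o, nb⟩, rfl, e⟩
      ⟨⟨m', k', he', i', σ', h', x', sol', ti', o', nb'⟩, e₀, e'⟩
    obtain rfl : m' = m := e₀
    obtain rfl : k = _ := Fin.ext e
    obtain rfl : k' = _ := Fin.ext e'
    refine ⟨fun r => ?_, fun r => ?_⟩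
    · obtain rfl : i = i' := r.2.2.1.1 rfl
      obtain rfl : σ = σ' := H.cell_ext h h' fun b => by
        cases b
        exacts [r.1.1, r.2.1]
      exact congrArg (Sigma.mk _) (Quot.sound (H.iso_iff.1 r))
    · obtain ⟨rfl, rfl⟩ : i = i' ∧ σ = σ' := Prod.ext_iff.1 (congrArg (·.1.1) r)
      exact H.iso_iff.2 ((Job.equiv_TS (H.ok (fun e => h (by rw [e]; rfl)) _ _)
        ⟨σ, none, σ, rfl, nofun, h, subset_rfl⟩).eqvGen_iff.1
        (Quot.eqvGen_exact (eq_of_heq (Sigma.mk.inj r).2)))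

end Al

variable (Lm) in
/-- the interface holds -/
def LnP : Prop := ∀ (y : G75.YD κ lam) (S : Scene Lm) (t : TD y S) N n D (F : Pr t N n D) c d q,
  Hy F c d → ∃ v, LN F c d q v

/-- **F-EXC from the interface** -/
theorem excP_of (h : LnP Lm) : ExcP Lm := fun y S t N n D F C lv R d c T E q h1 h2 h3 h4 h5 h6 => by
  have k : Hy F c d := ⟨h1, ⟨R, h2⟩, h3, T, h4⟩
  obtain ⟨v, k'⟩ := h y S t N n D F c d q k
  have H : Al F c d C lv E q v := ⟨k, k', h5, h6⟩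
  exact ⟨_, H.exch, fun e he => ⟨⟨e.2, rfl, he⟩, H.equiv he⟩⟩

end Crest.Agent.X212.Nat27.Ex
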