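import Crest.Agent.X212.Sym93.Trp
import Crest.Agent.X212.Cay24.Out
import Crest.Agent.X212.Add46.Ch
import Crest.Agent.X212.One97.Ext
import Crest.Agent.X212.M.Rel

/-!
# X212 / Nat27 (helper27): literal identifications of cross-sections, limits on identified ends
-/

set_option autoImplicit false
set_option linter.unusedSectionVars false
noncomputable section
open scoped Manifold ContDiff Topology InnerProductSpace
open MeasureTheory Set Function Filter

namespace Crest.Agent.X212.Nat27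
open An M Cyf70 Nd18 Pj41 Tmp64 Bki64 Eqv71 Neck67
open Rf65 (ParY dz)

section gen
variable {E : Type} [NormedAddCommGroup E] [NormedSpace ℝ E] [FiniteDimensional ℝ E]
  [MeasurableSpace E] [BorelSpace E]
  {HM : Type} [TopologicalSpace HM] {I : ModelWithCorners ℝ E HM} [I.Boundaryless]
  {M : Type} [TopologicalSpace M] [ChartedSpace HM M] [IsManifold I ∞ M] [MeasurableSpace M]
  {E' : Type} [NormedAddCommGroup E'] [NormedSpace ℝ E'] [FiniteDimensional ℝ E']
  [MeasurableSpace E'] [BorelSpace E']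
  {HM' : Type} [TopologicalSpace HM'] {I' : ModelWithCorners ℝ E' HM'} [I'.Boundaryless]
  {M' : Type} [TopologicalSpace M'] [ChartedSpace HM' M'] [IsManifold I' ∞ M'] [MeasurableSpace M']
  {ι lam : Type} [Fintype ι] [Fintype lam] {F : Fr I M ι} {F' : Fr I' M' ι} {ψ : M → M'}
  {O : Set M} {O' : Set M'} {k r r' : ℕ} {η : ℝ}

theorem frel_symm {g : M ≃ₘ^∞⟮I, I'⟯ M'} (h : FRel F F' g univ) : FRel F' F g.symm univ :=
  ⟨isOpen_univ, fun x _ => g.symm.isLocalDiffeomorph x, fun a y _ => by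
    obtain ⟨x, rfl⟩ := g.surjective y
    have e := Dr59.mf_comp (g.symm.mdifferentiable (by simp) (g x)) (g.mdifferentiable (by simp) x)
    rw [show g.symm ∘ g = id from funext g.symm_apply_apply, Dr59.mf_id] at e
    exact (congrArg (Dr59.mf I' I g.symm (g x)) (h.e a x trivial).symm).trans
      ((DFunLike.congr_fun e (F.e a x)).symm.trans
      (congrArg (fun z => (F.e a z : E)) (g.symm_apply_apply x).symm))⟩

theorem lb_pull (h : FRel F F' ψ O) (mp : MapsTo ψ O O') {N : Type} [NormedAddCommGroup N]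
    [NormedSpace ℝ N] {f : M' → N} (H : Lb F'.toPre O' k f η) : Lb F.toPre O k (fun x => f (ψ x)) η :=
  Lb.of_Dw (fun _ hz => h.sm hz (H.sm (mp hz))) fun w hw _ hz =>
    (h.Dw hz w (u' := f) (.of_forall fun _ => rfl)).symm ▸ H.Dw w hw _ (mp hz)

theorem cl_pull (h : FRel F F' ψ O) (mp : MapsTo ψ O O') {c : Cfg M' ι lam r} {c' : Cfg M' ι lam r'}
    {u : M' → CL c.m.V c'.m.V} {ζ : Circle} (H : Cl F' c c' u (fun _ => ζ) O' k η) :
    Cl F (cmC ψ c) (cmC ψ c') (fun x => u (ψ x)) (fun _ => ζ) O k η :=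
  ⟨h.op, cm_iso0 (fun x hx => (h.ld x hx).contMDiffAt) mp H.iso,
    fun a => (lb_pull h mp (H.A a)).congr h.op fun x hx => by
      simp only [dA, cov, h.D hx a (u := fun x => u (ψ x)) (u' := u) (.of_forall fun _ => rfl)],
    lb_pull h mp H.P⟩

end gen

variable {κ lam : Type} [Fintype κ] [Fintype lam] {Y Y' Y'' : Mf 3} [CompactSpace Y.M]
  [CompactSpace Y'.M] [CompactSpace Y''.M] {D : YD Y.I Y.M κ lam} {D' : YD Y'.I Y'.M κ lam}
  {D'' : YD Y''.I Y''.M κ lam} {g : Y.M ≃ₘ^∞⟮Y.I, Y'.I⟯ Y'.M} {g' : Y'.M ≃ₘ^∞⟮Y'.I, Y''.I⟯ Y''.M}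
  {β γ : YC Y.M κ lam} {β' : YC Y'.M κ lam} {r r' : ℕ}

variable (D D' g) in
/-- literal identification of cross-sections -/
structure YI : Prop where
  fr : FRel D.F D'.F g univ
  o : ∀ a b c d y, D.o a b c d y = D'.o a b c d (g y)
  l : ∀ y, D.l y = D'.l (g y)
  il : D.il = D'.il
  a : ∀ k y, D.a k y = D'.a k (g y)

theorem yi_of {lam : Type} [Fintype lam] [DecidableEq lam] {C : Cy Y κ lam} {C' : Cy Y' κ lam}
    (h : C.Iso C' g) (hC : C'.L.On Y'.I univ) : YI C.yd C'.yd g :=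
  ⟨⟨isOpen_univ, fun x _ => g.isLocalDiffeomorph x, fun a x _ => h.e a x⟩,
    fun a b c d y => (h.o a b c d y).symm,
    fun y => congrArg Line51.rl (congrFun (congrArg Line51.Ln.p h.L) y).symm, rfl, fun k y =>
      ((congrArg (fun v => Line51.rl (C'.L.cm _ _ v)) (h.e k y).symm).trans
        ((congrArg Line51.rl (Line51.cm_pull (hC.sm _ trivial)
          (g.mdifferentiable (by simp) y) _).symm).trans
          (congrArg (fun L : Line51.Ln _ _ _ => Line51.rl (L.cm _ y _)) h.L))).symm⟩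

namespace YI
variable (h : YI D D' g)
include h

theorem symm : YI D' D g.symm :=
  ⟨frel_symm h.fr, fun a b c d y => by rw [h.o, g.apply_symm_apply],
    fun y => by rw [h.l, g.apply_symm_apply], h.il.symm, fun k y => by rw [h.a, g.apply_symm_apply]⟩

theorem trans (h' : YI D' D'' g') : YI D D'' (g.trans g') :=
  ⟨h.fr.trans h'.fr (mapsTo_univ _ _), fun a b c d y => (h.o a b c d y).trans (h'.o a b c d _),
    fun y => (h.l y).trans (h'.l _), h.il.trans h'.il, fun k y => (h.a k y).trans (h'.a k _)⟩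

theorem gRel : GRel D.B D.G D'.B D'.G (Prod.map g id) univ := by
  have k : FRel D.Z D'.Z (Prod.map g id) univ :=
    ⟨isOpen_univ, fun x _ => (g.prodCongr (Diffeomorph.refl 𝓘(ℝ, ℝ) ℝ ∞)).isLocalDiffeomorph x,
      fun a x _ => (DFunLike.congr_fun (((g.mdifferentiable (by simp) x.1).hasMFDerivAt.prodMap
        (hasMFDerivAt_id (I := 𝓘(ℝ, ℝ)) x.2)).mfderiv) _).trans (by
        have e := fun v => DFunLike.congr_fun (mfderiv_id (I := 𝓘(ℝ, ℝ)) (x := x.2)) v
        cases a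
        exacts [Prod.ext (map_zero (mfderiv Y.I Y'.I g x.1)) (e _),
          Prod.ext (h.fr.e _ _ trivial) (e _)])⟩
  exact ⟨k, fun a b x hx => k.P hx a b, fun a b c d x _ => h.o a b c d x.1, fun x _ => h.l x.1, h.il,
    fun a x _ => by cases a; exacts [rfl, h.a _ _]⟩

theorem adm (H : D'.Adm β') : D.Adm (pb g β') :=
  ⟨admOn_univ.1 ((h.gRel.admOn_iff (c := cy β')).2 ((admOn_univ.2 H.adm).mono (subset_univ _))),
    fun _ => H.tmp _⟩

theorem par {ξ : Y'.M → β'.m.A} : ParY D (pb g β') (fun y => ξ (g y)) ↔ ParY D' β' ξ :=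
  have e := fun k y => h.fr.nab (x := y) trivial (A := Rdc90.A0 (pb g β')) (A' := Rdc90.A0 β') k
    (u := fun y => ξ (g y)) (u' := ξ) rfl (.of_forall fun _ => rfl)
  ⟨fun p => ⟨g.surjective.forall.2 fun y => fsm_ld (g.isLocalDiffeomorph y) (p.sm y),
    g.surjective.forall.2 p.mem, fun k => g.surjective.forall.2 fun y => (e k y).symm.trans (p.par k y)⟩,
    fun p => ⟨p.sm.comp g.contMDiff, fun _ => p.mem _, fun k y => (e k y).trans (p.par k _)⟩⟩

theorem dz_pb : dz D (pb g β') = dz D' β' := by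
  rw [Clr59.dz_def, Clr59.dz_def]
  refine ((LinearEquiv.funCongrLeft ℝ β'.m.A g.toEquiv).ofSubmodules _
    (show Submodule ℝ (Y.M → β'.m.A) from Clr59.parS D (pb g β'))
    (Submodule.ext fun ξ => ⟨?_, fun p => ⟨fun y => ξ (g.symm y), h.par.1 ?_, ?_⟩⟩)).finrank_eq.symm
  · rintro ⟨ξ, p, rfl⟩
    exact h.par.2 p
  · simpa only [g.symm_apply_apply] using! p
  · exact funext fun y => congrArg ξ (g.symm_apply_apply y)

end YI

theorem win_ev {b : Bool} {S : Set ℝ} (h : S ∈ (bif b then atTop else atBot : Filter ℝ)) :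
    ∀ᶠ s in (bif b then atTop else atBot : Filter ℝ), Ioo (s - 1) (s + 1) ⊆ S := by
  cases b
  · obtain ⟨a, ha⟩ := mem_atBot_sets.1 h
    filter_upwards [eventually_le_atBot (a - 1)] with s hs x hx using ha x (by linarith [hx.2])
  · obtain ⟨a, ha⟩ := mem_atTop_sets.1 h
    filter_upwards [eventually_ge_atTop (a + 1)] with s hs x hx using ha x (by linarith [hx.1])

/-- uniqueness of limits on the cylinder -/
theorem eqv_two (hD : D.OK) (hβ : D.Adm β) (hγ : D.Adm γ) {c : Cfg (Y.M × ℝ) (Option κ) lam r}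
    {b : Bool} {T : Set ℝ} (hT : T ∈ (bif b then atTop else atBot : Filter ℝ))
    (hc : AdmOn c D.B D.G (univ ×ˢ T)) {u u' ζ ζ'}
    (H : ∀ k, ∀ η > 0, ∃ S ∈ (bif b then atTop else atBot : Filter ℝ),
      Cl D.Z c (cy β) u (fun _ => ζ) (univ ×ˢ S) k η)
    (H' : ∀ k, ∀ η > 0, ∃ S ∈ (bif b then atTop else atBot : Filter ℝ),
      Cl D.Z c (cy γ) u' (fun _ => ζ') (univ ×ˢ S) k η) : D.Eqv β γ := by
  have : (bif b then atTop else atBot : Filter ℝ).NeBot := by cases b <;> (simp; infer_instance)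
  have e := fun {S} hS => Ultrafilter.of_le _ (win_ev (b := b) (S := S) hS)
  obtain ⟨g, ξ, g1, -⟩ := step_fam hβ hγ (𝒰 := .of (bif b then atTop else atBot)) (s := id)
    (c := fun _ => c) (u := fun _ => u) (u' := fun _ => u') (ζ := fun _ => ζ) (ζ' := fun _ => ζ')
    one_half_lt_one one_pos (Eventually.mono (e hT) fun _ hs => hc.mono (prod_mono_right hs))
    (fun k η hη => let ⟨_, h1, h2⟩ := H k η hη; Eventually.mono (e h1) fun _ hs =>
      h2.mono (win_op _ _) (prod_mono_right hs) le_rfl le_rfl)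
    fun k η hη => let ⟨_, h1, h2⟩ := H' k η hη; Eventually.mono (e h1) fun _ hs =>
      h2.mono (win_op _ _) (prod_mono_right hs) le_rfl le_rfl
  exact g1.eqv hD hβ hγ

variable {Z Z' : Mf 4} {B : Base Z.M (Option κ) lam} {G : Geo Z.I Z.M (Option κ) lam}
  {B' : Base Z'.M (Option κ) lam} {G' : Geo Z'.I Z'.M (Option κ) lam} {K : Nk D B G}
  {K' : Nk D' B' G'} {c : Cfg Z.M (Option κ) lam 0} {c' : Cfg Z'.M (Option κ) lam 0}
  {O : Set Z.M} {φ : Z.M → Z'.M} {U : Z.M → Option κ → Option κ → ℝ} {v : Z.M → En lam}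
  {u : Z.M → CL c.m.V c'.m.V}

theorem admOn_nk (K : Nk D B G) (h : c.Adm B G) : AdmOn (K.pb c) D.B D.G (univ ×ˢ K.J) :=
  (One97.admOn_pb K isOpen_univ (admOn_univ.2 h)).mono fun _ hz => ⟨K.mem_src.2 hz.2, trivial⟩

/-- **the limits of equivalent configurations on identified ends have the same stabiliser** -/
theorem dz_nk [ConnectedSpace Y.M] (h : YI D D' g) (hD : D.OK) (hJ : K'.J = K.J)
    (hO : K.ψ.target ⊆ O) (hO' : IsOpen O)
    (hψ : ∀ z ∈ K.ψ.source, φ (K.ψ z) = K'.ψ (g z.1, z.2) ∧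
      (∀ k l, U (K.ψ z) k l = B.P k l (K.ψ z)) ∧ v (K.ψ z) = B.l (K.ψ z))
    (a : c.Adm B G) (a' : c'.Adm B' G') (e : CEq G.F c c' O φ U v u 1) (hβ : D.Adm β)
    (hβ' : D'.Adm β') {b : Bool} {ζ ζ' : Circle} (L : K.Lim c β ζ (bif b then atTop else atBot))
    (L' : K'.Lim c' β' ζ' (bif b then atTop else atBot)) : dz D β = dz D' β' := by
  obtain ⟨w, L⟩ := L
  obtain ⟨w', L'⟩ := L'
  have a1 := admOn_nk K a
  have a2 := admOn_nk K' a'
  have op : IsOpen (univ ×ˢ K.J : Set (Y.M × ℝ)) := K.src ▸ K.ψ.open_source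
  have a3 : AdmOn (cmC (Prod.map g id) (K'.pb c')) D.B D.G (univ ×ˢ K.J) :=
    (h.gRel.mono op (subset_univ _)).admOn_iff.2 (a2.mono (by
      rintro _ ⟨z, hz, rfl⟩; exact ⟨trivial, hJ ▸ hz.2⟩))
  have s : ∀ z ∈ (univ ×ˢ K.J : Set (Y.M × ℝ)), z ∈ K.ψ.source := fun z hz => K.mem_src.2 hz.2
  have t := fun z hz => hO (K.ψ.map_source (s z hz))
  have su := fun z hz => K.rel.sm (s z hz) ((e.m.su _ (t z hz)).contMDiffAt (hO'.mem_nhds (t z hz)))
  have q : Eq0 D.Z (K.pb c) (cmC (Prod.map g id) (K'.pb c')) (univ ×ˢ K.J) fun z => u (K.ψ z) := by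
    refine ⟨.of_mEq op ⟨fun z hz => (su z hz).contMDiffWithinAt, fun z hz => e.m.uu _ (t z hz),
      fun z hz => (e.m.uu' _ (t z hz)).trans (congrArg _ (hψ z (s z hz)).1),
      fun z hz => e.m.J _ (t z hz), fun z hz b => ?_, fun z hz x => ?_⟩ a1.ok a3.ok,
      (par0_iff (a3.conn.proj' hD.B)).2 fun z hz b => ?_,
      fun z hz => ?_, Subsingleton.elim _ _⟩
    · simpa only [hψ z (s z hz), K.P _ _ z (s z hz)] using! e.m.ρ _ (t z hz) b
    · simpa only [hψ z (s z hz), K.l z (s z hz)] using! e.m.j _ (t z hz) x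
    · simpa only [hψ z (s z hz), K.P _ _ z (s z hz), ← K.rel.D (s z hz) b (u' := u)
        (u := fun z => u (K.ψ z)) (.of_forall fun _ => rfl)] using! e.W _ (t z hz) b
    · simpa only [hψ z (s z hz), Circle.coe_one, cs_one] using! e.Φ _ (t z hz)
  obtain ⟨T, hT, hT', -⟩ := L 0 1 one_pos
  refine (Sym93.dz_eqv hD hβ (h.adm hβ') (eqv_two hD hβ (h.adm hβ') hT
    (a1.mono (prod_mono_right hT')) (u := w) (ζ := ζ) (ζ' := ζ')
    (u' := fun z => w' (Prod.map g id z) ∘L u (K.ψ z)) (fun k η hη => ?_)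
    fun k η hη => ?_)).trans h.dz_pb
  · obtain ⟨S, h1, h2, h3⟩ := L k η hη
    exact ⟨S, h1, cl_of_cls hβ (a1.mono (prod_mono_right h2)) h3⟩
  · obtain ⟨S, h1, h2, h3⟩ := L' k η hη
    exact ⟨S, h1, Cay24.cl_pre q (cl_pull (h.gRel.fr.mono (isOpen_univ.prod h3.op) (subset_univ _))
      (fun z hz => mk_mem_prod (mem_univ _) hz.2) (cl_of_cls hβ' (a2.mono (prod_mono_right h2)) h3))
      (prod_mono_right (hJ ▸ h2))⟩

end Crest.Agent.X212.Nat27
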