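import Crest.Agent.X212.Nat27.Ix
import Crest.Agent.X212.Nat27.Lm
import Crest.Agent.X212.Add46.Bg

/-!
# X212 / Nat27 (helper27): **P-NAT**, the indices of identified pieces agree
-/

set_option autoImplicit false
set_option linter.unusedSectionVars false
noncomputable section
open scoped Manifold ContDiff Topology InnerProductSpace
open MeasureTheory Set Function Filter

namespace Crest.Agent.X212.Nat27
open An M Nd18 Mod61 Nk89 Cht98 Rf65 Rdc90 Eqv71 Add46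

section gen
variable {E : Type} [NormedAddCommGroup E] [NormedSpace ℝ E] [FiniteDimensional ℝ E]
  [MeasurableSpace E] [BorelSpace E]
  {HM : Type} [TopologicalSpace HM] {I : ModelWithCorners ℝ E HM} [I.Boundaryless]
  {M : Type} [TopologicalSpace M] [ChartedSpace HM M] [IsManifold I ∞ M]
  [MeasurableSpace M] [T2Space M] [BorelSpace M] [SecondCountableTopology M] {ι : Type} [Fintype ι]
  {E' : Type} [NormedAddCommGroup E'] [NormedSpace ℝ E'] [FiniteDimensional ℝ E']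
  [MeasurableSpace E'] [BorelSpace E']
  {HM' : Type} [TopologicalSpace HM'] {I' : ModelWithCorners ℝ E' HM'} [I'.Boundaryless]
  {M' : Type} [TopologicalSpace M'] [ChartedSpace HM' M'] [IsManifold I' ∞ M']
  [MeasurableSpace M'] [T2Space M'] [BorelSpace M'] [SecondCountableTopology M']
  {ι' : Type} [Fintype ι'] {lam lam' : Type} [Fintype lam] [Fintype lam'] {φ : M → M'}
  {U U₁ : M → ι' → ι → ℝ} {v v₁ : M → CL (Eu lam) (Eu lam')} {O : Set M} {O' : Set M'} {r : ℕ}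
  {c x : Cfg M ι lam r} {c' x' : Cfg M' ι' lam' r} {u : M → CL c.m.V c'.m.V} {ζ : Circle}

theorem map_wm {μ : Measure M} {μ' : Measure M'} {w : M → ℝ} {w' : M' → ℝ} (hO : IsOpen O)
    (hO' : IsOpen O') (hφ : ContinuousOn φ O) (h : (μ.restrict O).map φ = μ'.restrict O')
    (hw : Continuous w) (hw' : Continuous w') (e : ∀ x ∈ O, w' (φ x) = w x) :
    ((wm μ w).restrict O).map φ = (wm μ' w').restrict O' := by
  have ms := hO.measurableSet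
  have am := hφ.aemeasurable (μ := μ) ms
  rw [wm, wm, restrict_withDensity ms, restrict_withDensity hO'.measurableSet, ← h]
  refine Measure.ext_of_lintegral _ fun f hf => ?_
  have m := meas_w hw
  have m' := meas_w hw'
  rw [lintegral_map' hf.aemeasurable (am.mono_ac (withDensity_absolutelyContinuous _ _)),
    lintegral_withDensity_eq_lintegral_mul _ m' hf, lintegral_map' (m'.mul hf).aemeasurable am]
  exact (lintegral_withDensity_eq_lintegral_mul₀ m.aemeasurable (hf.comp_aemeasurable am)).trans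
    (setLIntegral_congr_fun ms fun x hx => by simp only [Pi.mul_apply, e x hx, comp_apply])

theorem ceq_cg {F : Fr I M ι} (e : CEq F c c' O φ U v u ζ) (hU : ∀ x ∈ O, U₁ x = U x)
    (hv : ∀ x ∈ O, v₁ x = v x) : CEq F c c' O φ U₁ v₁ u ζ :=
  ⟨⟨e.m.su, e.m.uu, e.m.uu', e.m.J, fun x hx => hU x hx ▸ e.m.ρ x hx,
    fun x hx => hv x hx ▸ e.m.j x hx⟩, fun x hx => hU x hx ▸ e.W x hx, e.Φ, e.z⟩

theorem ceq_rep {B : Base M ι lam} {G : Geo I M ι lam} {B' : Base M' ι' lam'}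
    {G' : Geo I' M' ι' lam'} (g : LG B G B' G' O φ U v) (mp : MapsTo φ O O') (hO' : IsOpen O')
    (a : Ad0 c B G) (b : Ad0 x B G) (a' : Ad0 c' B' G') (b' : Ad0 x' B' G')
    (e : CEq G.F c c' O φ U v u ζ) (k : ∃ w ξ, EqOn B G.F O c x w ξ)
    (k' : ∃ w ξ, EqOn B' G'.F O' c' x' w ξ) : ∃ u ζ, CEq G.F x x' O φ U v u ζ := by
  obtain ⟨w, ξ, k⟩ := k
  obtain ⟨w', ξ', k'⟩ := k'
  have e1 := ceq_cg (ceq_trans (lg_refl g.hB g.hG g.rot.opn) g (mapsTo_id _) b a a'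
    (ceq_symm_id g.hB g.hG g.rot.opn a b k) e) (U₁ := U) (v₁ := v)
    (fun x hx => funext₂ fun d a => ((g.be x hx).UP g.hB d a).symm)
    fun x hx => ((g.be x hx).vl g.hB).symm
  exact ⟨_, _, ceq_cg (ceq_trans g (lg_refl g.hB' g.hG' hO') mp b a' b' e1 k')
    (fun x hx => funext₂ fun d a => ((g.be x hx).PU g.hB' d a).symm)
    fun x hx => ((g.be x hx).lv g.hB).symm⟩

end gen

variable {Wi : Type} {X : Mf 4} {A κ lam : Type} [Fintype A] [Fintype κ] [Fintype lam]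
  [DecidableEq lam] {M : Mark X A κ} {W : World M} {N : ML M lam} {Λ : Lns W N}
  {A' h : Type} [Fintype A'] [DecidableEq A'] [Fintype h] {r n : ℕ}
  {J : Job Wi Λ A' h r n} {c : M.Cl}
  {Wi₂ : Type} {X₂ : Mf 4} {A₂ : Type} [Fintype A₂] {M₂ : Mark X₂ A₂ κ} {W₂ : World M₂}
  {N₂ : ML M₂ lam} {Λ₂ : Lns W₂ N₂} {A₃ h₂ : Type} [Fintype A₃] [DecidableEq A₃] [Fintype h₂]
  {r₂ n₂ : ℕ} {J₂ : Job Wi₂ Λ₂ A₃ h₂ r₂ n₂} {c₂ : M₂.Cl} {P P' : Set (Reg A)} {P₂ P₂' : Set (Reg A₂)}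
  {φ : (W.Z c).M → (W₂.Z c₂).M} {ψ : (W₂.Z c₂).M → (W.Z c).M}
  {U : (W.Z c).M → Option κ → Option κ → ℝ} {v : (W.Z c).M → CL (Eu (lam ⊕ lam)) (Eu (lam ⊕ lam))}
  {e : EdP c P ≃ EdP c₂ P₂} {b : Bp J c} {b₂ : Bp J₂ c₂} {δ : ℝ}

variable (φ U v b b₂) in
/-- identified ends -/
structure NR (i : Ed c) (i₂ : Ed c₂)
    (g : (J.xs i.1).Y.M ≃ₘ^∞⟮(J.xs i.1).Y.I, (J₂.xs i₂.1).Y.I⟯ (J₂.xs i₂.1).Y.M) : Prop where
  yi : YI (J.xs i.1).D (J₂.xs i₂.1).D g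
  J : ((jE b₂).E i₂).K.J = ((jE b).E i).K.J
  ψ : ∀ z ∈ ((jE b).E i).K.ψ.source, φ (((jE b).E i).K.ψ z) = ((jE b₂).E i₂).K.ψ (g z.1, z.2) ∧
    (∀ k l, U (((jE b).E i).K.ψ z) k l = (jE b).B.P k l (((jE b).E i).K.ψ z)) ∧
    v (((jE b).E i).K.ψ z) = (jE b).B.l (((jE b).E i).K.ψ z)

variable (hJ : J.OK) (hJ₂ : J₂.OK) (G : GId J c b.s P J₂ c₂ b₂.s P₂ φ ψ U v e)
include hJ hJ₂ G

theorem exists_nr (i : EdP c P) : ∃ g, NR φ U v b b₂ i.1 (e i).1 g := by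
  obtain ⟨g, h1, h2⟩ := G.nk i
  have s := G.sd i
  revert g s
  generalize (e i).1 = j
  generalize i.1 = i
  intro g h1 h2 s
  obtain ⟨a, t⟩ := i
  obtain ⟨a₂, t₂⟩ := j
  obtain rfl : t₂ = t := s
  have k := hJ.nk _ _ _ _ (act b (a, t₂))
  have k₂ := hJ₂.nk _ _ _ _ (act b₂ (a₂, t₂))
  have p : (J.Θ b.s).2 a = 1 := b.br.2 a.2.1
  have p₂ : (J₂.Θ b₂.s).2 a₂ = 1 := b₂.br.2 a₂.2.1
  have q := isNk_J (act b (a, t₂)) k
  have q₂ := isNk_J (act b₂ (a₂, t₂)) k₂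
  rw [p] at q
  rw [p₂, ← q] at q₂
  refine ⟨((J.g a).trans g).trans (J₂.g a₂).symm, ((yi_of (hJ.iso _ a.2.2) (N.okY _)).trans
    (yi_of h1 (N₂.okY _))).trans (yi_of (hJ₂.iso _ a₂.2.2) (N₂.okY _)).symm, q₂, fun z hz => ?_⟩
  have z1 := ((jE b).E (a, t₂)).K.mem_src.1 hz
  have z2 : li 1 t₂ z.2 ∈ Cht98.Hs 1 t₂ := li_mem le_rfl (q ▸ z1 :)
  have z3 := isNk_ψ (act b (a, t₂)) k z1
  have z4 := isNk_ψ (act b₂ (a₂, t₂)) k₂
    (q := ((J₂.g a₂).symm (g (J.g a z.1)), z.2)) (q₂ ▸ z1 :)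
  rw [p] at z3
  rw [p₂, (J₂.g a₂).apply_symm_apply] at z4
  have z5 := z2.2.resolve_left (lt_irrefl _)
  have := h2 (J.g a z.1) (li 1 t₂ z.2) (by cases t₂ <;> simpa [pm] using z5)
    (by cases t₂ <;> simp [pm] <;> linarith [z2.1.1, z2.1.2])
  exact z3 ▸ ⟨this.1.trans z4.symm, this.2⟩

variable (hP : ∀ π ∈ P, M.sys.Piece c.1 π) (hP₂ : ∀ π ∈ P₂, M₂.sys.Piece c₂.1 π)
include hP hP₂

theorem tau_eq (i : EdP c P) {x : (W.Z c).M} (hx : x ∈ W.un c P) :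
    ((jE b₂).P0 ∅ ∅ (e i).1).sg * ((jE b₂).E (e i).1).K.τ (φ x) =
      ((jE b).P0 ∅ ∅ i.1).sg * ((jE b).E i.1).K.τ x := by
  obtain ⟨g, k⟩ := exists_nr hJ hJ₂ G i
  have s := (jE_ok hJ b).st i.1
  have s₂ := (jE_ok hJ₂ b₂).st (e i).1
  by_cases h : x ∈ ((jE b).E i.1).K.ψ.target
  · obtain ⟨z, hz, rfl⟩ := ((jE b).E i.1).K.ψ.image_source_eq_target.ge h
    have e1 : ((jE b₂).P0 ∅ ∅ (e i).1).sg = ((jE b).P0 ∅ ∅ i.1).sg := by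
      simp only [End.sg, G.sd i]
    have e2 : ((jE b₂).E (e i).1).K.tm (φ (((jE b).E i.1).K.ψ z)) =
        ((jE b).E i.1).K.tm (((jE b).E i.1).K.ψ z) := by
      rw [(k.ψ z hz).1, Nk.tm_ψ _ _ hz, Nk.tm_ψ _ _
        ((Nk.mem_src _).2 (k.J ▸ (Nk.mem_src _).1 hz :))]
    refine (s₂.τ_eq _).trans (Eq.trans ?_ (s.τ_eq _).symm)
    rw [e1]
    exact congrArg (fun t => _ * t * Real.smoothTransition (2 * (_ * t) - 1)) e2
  · refine (s₂.τ_zero fun h' => h ?_).trans (s.τ_zero h).symm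
    obtain ⟨⟨y, t⟩, hz, e1⟩ := ((jE b₂).E (e i).1).K.ψ.image_source_eq_target.ge h'
    obtain ⟨y, rfl⟩ := g.surjective y
    have z1 : (y, t) ∈ ((jE b).E i.1).K.ψ.source :=
      (Nk.mem_src _).2 (k.J ▸ (Nk.mem_src _).1 hz :)
    have z2 := ((jE b).E i.1).K.ψ.map_source z1
    rwa [← G.kt.inv.linv x hx, ← ((k.ψ _ z1).1.trans e1), G.kt.inv.linv _ ((jE_ls hJ b hP).sub i z2)]

omit hJ₂ G hP₂ in
theorem wψ_un {O O' : Set (W.Z c).M} {x : (W.Z c).M} (hx : x ∈ W.un c P) :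
    wψ (jEnd O O' (fun _ : T0 => b.s) b.br b.O) δ x =
      δ * ∑ i : EdP c P, ((jE b).P0 ∅ ∅ i.1).sg * ((jE b).E i.1).K.τ x := by
  refine congrArg (δ * ·) (Fintype.sum_of_injective _ Subtype.val_injective _ _
    (fun i hi => ?_) fun _ => rfl).symm
  exact ((jE_ok hJ b).st i).τ_zero fun k => disjoint_left.1 ((jE_ls hJ b hP).off i hi) k hx

theorem wψ_rel {O O' : Set (W.Z c).M} {O₂ O₂' : Set (W₂.Z c₂).M} {x : (W.Z c).M}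
    (hx : x ∈ W.un c P) : wψ (jEnd O₂ O₂' (fun _ : T0 => b₂.s) b₂.br b₂.O) δ (φ x) =
      wψ (jEnd O O' (fun _ : T0 => b.s) b.br b.O) δ x := by
  rw [wψ_un hJ hP hx, wψ_un hJ₂ hP₂ (G.kt.inv.maps hx), ← e.sum_comp]
  exact congrArg _ (Finset.sum_congr rfl fun i _ => tau_eq hJ hJ₂ G hP hP₂ i hx)

omit hP₂ in
theorem cb_U (k l : Option κ) :
    (J.G c b.s).F.Cb ((W.un c P).indicator fun x => U x k l) := by
  classical
  refine (jE_ok hJ b).cb (sm_ind (Job.isClopen_un hP) (G.kt.rot.sU k l))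
    (g := fun i y => if i ∈ EdP c P then (J.xs i.1).D.B.P k l (y, 0) else 0) (fun i => ?_)
    fun i z hz => ?_
  · split_ifs
    · exact ((J.xs i.1).D.Z.P_sm k l).congr fun x => by cases k <;> cases l <;> rfl
    · exact contMDiff_const
  have z1 := ((jE b).E i).K.ψ.map_source hz
  split_ifs with hi
  · obtain ⟨g, q⟩ := exists_nr hJ hJ₂ G ⟨i, hi⟩
    rw [indicator_of_mem ((jE_ls hJ b hP).sub ⟨i, hi⟩ z1)]
    exact ((q.ψ z hz).2.1 k l).trans ((((jE b).E i).K.P k l z hz).trans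
      (by cases k <;> cases l <;> rfl))
  · exact indicator_of_notMem (disjoint_left.1 ((jE_ls hJ b hP).off i (by simpa using hi)) z1) _

theorem pt_of (t t₂ : T0) : PT (Fs (b.Fm P P' (fun _ : T0 => b.s) δ) t)
    (Fs (b₂.Fm P₂ P₂' (fun _ : T0 => b₂.s) δ) t₂) (W.un c P) (W₂.un c₂ P₂) φ ψ U :=
  ⟨G.kt.cl, G.kt.cl', by
      have := G.kt.rot
      rwa [← G.kt.hG.P, ← G.kt.hG'.P] at this, G.kt.inv,
    map_wm G.kt.rot.opn G.kt.inv.opn' (fun x hx => (G.kt.rot.sφ x hx).continuousAt.continuousWithinAt)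
      G.kt.μ (sm_wψ _ δ).continuous (sm_wψ _ δ).continuous fun _ => wψ_rel hJ hJ₂ G hP hP₂,
    fun k l => (show WtP (J.G c b.s).F.toPre (Fs (b.Fm P P' (fun _ : T0 => b.s) δ) t).toPre _ from
      ⟨sm_wψ _ δ, rfl, rfl⟩).Cb.2 (cb_U hJ hJ₂ G hP k l)⟩

omit G

theorem ix_eq {y : J.Obc c} {y₂ : J₂.Obc c₂} (h0 : 0 < δ) (g : Go δ y P) (g₂ : Go δ y₂ P₂)
    (H : CId y P y₂ P₂) (hs : P' = ∅ ∧ P₂' = ∅ ∨ P' = P ∧ P₂' = P₂) {d d₂ : ℤ}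
    (k : Ix δ y P P' d) (k₂ : Ix δ y₂ P₂ P₂' d₂) : d = d₂ := by
  obtain ⟨φ, ψ, U, v, e, u, G, H⟩ := H
  obtain ⟨⟨s, br, hO⟩, o, R, x, rfl : s = y.s, -, -, -, p, k⟩ := k
  obtain ⟨⟨s₂, br₂, hO₂⟩, o₂, R₂, x₂, rfl : s₂ = y₂.s, -, -, -, p₂, k₂⟩ := k₂
  have s1 : P' ⊆ P ∧ P₂' ⊆ P₂ := by rcases hs with ⟨rfl, rfl⟩ | ⟨rfl, rfl⟩ <;> simp
  have i := endIn_P hJ hP s1.1 ⟨_, br, hO⟩
  have i₂ := endIn_P hJ₂ hP₂ s1.2 ⟨_, br₂, hO₂⟩
  have a := ok_wtF i.ok (sm_wψ _ δ) (wψ_nonneg i.st h0.le) (cb_D_wψ _ δ)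
  have a₂ := ok_wtF i₂.ok (sm_wψ _ δ) (wψ_nonneg i₂.st h0.le) (cb_D_wψ _ δ)
  obtain ⟨w, ζ, q⟩ := ceq_rep G.kt.toLG G.kt.inv.maps G.kt.inv.opn' (ad0_of g.adm) (x.ad0 a)
    (ad0_of g₂.adm) (x₂.ad0 a₂) H p p₂
  refine idx_iso a a₂ (by norm_num) G.kt.toLG (pt_of (b := ⟨_, br, hO⟩) (b₂ := ⟨_, br₂, hO₂⟩)
    hJ hJ₂ G hP hP₂ _ _) (fun z hz => ?_) q k k₂
  rcases hs with ⟨rfl, rfl⟩ | ⟨rfl, rfl⟩
  · exact iff_of_false (fun k => by simpa using mem_un.1 k) fun k => by simpa using mem_un.1 k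
  · exact iff_of_true hz (G.kt.inv.maps hz)

theorem stb_eq {y : J.Obc c} {y₂ : J₂.Obc c₂} (h0 : 0 < δ) (g : Go δ y P) (g₂ : Go δ y₂ P₂)
    (H : CId y P y₂ P₂) : stb y P = stb y₂ P₂ := by
  obtain ⟨φ, ψ, U, v, e, u, G, H⟩ := H
  refine (finsum_set_coe_eq_finsum_mem (EdP c P)).symm.trans (Eq.trans ?_
    (finsum_set_coe_eq_finsum_mem (EdP c₂ P₂)))
  rw [← finsum_comp_equiv e]
  refine finsum_congr fun i => ?_
  obtain ⟨f, k⟩ := exists_nr (b := g.bp) (b₂ := g₂.bp) hJ hJ₂ G i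
  have := J.conn_xs i.1.1
  have L := lim_go h0 g₂ (e i)
  rw [show ((jBG g₂.bp P₂).E (e i)).out = ((jBG g.bp P).E i).out from congrArg (!·) (G.sd i)] at L
  exact dz_nk k.yi (hJ.xs _).1.yd k.J ((jE_ls hJ g.bp hP).sub i) G.kt.rot.opn k.ψ
    ⟨g.adm.ok, g.adm.conn, g.adm.sm, g.adm.pos, .inl rfl⟩
    ⟨g₂.adm.ok, g₂.adm.conn, g₂.adm.sm, g₂.adm.pos, .inl rfl⟩ H (g.bs _ i.2).adm
    (g₂.bs _ (e i).2).adm (lim_go h0 g i) L

omit hJ hJ₂ hP hP₂ in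
variable (J c J₂ c₂) in
/-- **P-NAT** -/
theorem inat : INat J c J₂ c₂ := fun δ y π y₂ π₂ h0 hJ hJ₂ S S₂ hπ hπ₂ g g₂ H => by
  have hP : ∀ ρ ∈ ({π} : Set _), M.sys.Piece c.1 ρ := fun _ k => k ▸ hπ
  have hP₂ : ∀ ρ ∈ ({π₂} : Set _), M₂.sys.Piece c₂.1 ρ := fun _ k => k ▸ hπ₂
  have h1 := ix_eq hJ hJ₂ hP hP₂ h0 g g₂ H (.inl ⟨rfl, rfl⟩) (S.ex y _ _ hP (empty_subset _) g)
    (S₂.ex y₂ _ _ hP₂ (empty_subset _) g₂)
  have h2 := ix_eq hJ hJ₂ hP hP₂ h0 g g₂ H (.inr ⟨rfl, rfl⟩) (S.ex y _ _ hP subset_rfl g)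
    (S₂.ex y₂ _ _ hP₂ subset_rfl g₂)
  simp only [ix, finsum_mem_singleton, finsum_mem_empty, add_zero] at h1 h2
  refine ⟨h1, by omega, ?_, stb_eq hJ hJ₂ hP hP₂ h0 g g₂ H⟩
  obtain ⟨φ, ψ, U, v, e, u, G, H⟩ := H
  rw [← un_one, ← un_one]
  exact (kap_on G.kt.toKG (G.kt.toLG.of_ceq (ad0_of g.adm) (ad0_of g₂.adm) H)).symm

end Crest.Agent.X212.Nat27
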