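import Crest.Agent.X212.Map77.Tw
import Crest.Agent.X212.Eqv71.Res

/-!
# X212 / Nat27 (helper27): transport of Sobolev spaces along isometries of clopen sets
-/

set_option autoImplicit false
set_option linter.unusedSectionVars false
noncomputable section
open scoped Manifold ContDiff Topology InnerProductSpace
open MeasureTheory Set Function Filter

namespace Crest.Agent.X212.Nat27
open An An.Pre Sob92 Ell97 Prm93 Fred93 Eqv71

variable {E : Type} [NormedAddCommGroup E] [NormedSpace ℝ E] [FiniteDimensional ℝ E]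
  [MeasurableSpace E] [BorelSpace E]
  {HM : Type} [TopologicalSpace HM] {I : ModelWithCorners ℝ E HM} [I.Boundaryless]
  {M : Type} [TopologicalSpace M] [ChartedSpace HM M] [IsManifold I ∞ M]
  [MeasurableSpace M] [T2Space M] [BorelSpace M] [SecondCountableTopology M] {ι : Type} [Fintype ι]
  {E' : Type} [NormedAddCommGroup E'] [NormedSpace ℝ E'] [FiniteDimensional ℝ E']
  [MeasurableSpace E'] [BorelSpace E']
  {HM' : Type} [TopologicalSpace HM'] {I' : ModelWithCorners ℝ E' HM'} [I'.Boundaryless]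
  {M' : Type} [TopologicalSpace M'] [ChartedSpace HM' M'] [IsManifold I' ∞ M']
  [MeasurableSpace M'] [T2Space M'] [BorelSpace M'] [SecondCountableTopology M']
  {ι' : Type} [Fintype ι']
  {N : Type} [NormedAddCommGroup N] [NormedSpace ℝ N]
  {V W V' W' : Type} [NormedAddCommGroup V] [InnerProductSpace ℝ V]
  [NormedAddCommGroup W] [InnerProductSpace ℝ W] [NormedAddCommGroup V'] [InnerProductSpace ℝ V']
  [NormedAddCommGroup W'] [InnerProductSpace ℝ W']
  {F : Fr I M ι} {F' : Fr I' M' ι'} {O : Set M} {O' : Set M'} {φ : M → M'} {ψ : M' → M}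
  {U : M → ι' → ι → ℝ} {x : M} {y : M'} {f : M → N}

/-- the transported function -/
def pu (O' : Set M') (ψ : M' → M) (f : M → N) : M' → N := O'.indicator fun y => f (ψ y)

theorem pu_on (hy : y ∈ O') (f : M → N) : pu O' ψ f y = f (ψ y) := indicator_of_mem hy _

theorem pu_off (hy : y ∉ O') (f : M → N) : pu O' ψ f y = 0 := indicator_of_notMem hy _

variable (F F' O O' φ ψ U) in
/-- an isometry of clopen sets with a bounded rotation of the frames -/
structure PT : Prop where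
  cl : IsClosed O
  cl' : IsClosed O'
  rot : Rot I I' φ O F.e F.P F'.e F'.P fun b a x => U x b a
  inv : Inv I I' φ ψ O O'
  μ : (F.μ.restrict O).map φ = F'.μ.restrict O'
  cb : ∀ b a, F.Cb (O.indicator fun x => U x b a)

namespace PT
variable (g : PT F F' O O' φ ψ U)
include g

theorem clo : IsClopen O := ⟨g.cl, g.rot.opn⟩
theorem clo' : IsClopen O' := ⟨g.cl', g.inv.opn'⟩

theorem pu_φ (hx : x ∈ O) (f : M → N) : pu O' ψ f (φ x) = f x := by
  rw [pu_on (g.inv.maps hx), g.inv.linv x hx]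

theorem sm (hf : Sm I f) : Sm I' (pu O' ψ f) := sm_ind g.clo' fun _ hy => g.inv.sa hy (hf _)

theorem hcs (hf : HasCompactSupport f) : HasCompactSupport (pu O' ψ f) := by
  refine HasCompactSupport.intro ((hf.inter_right g.cl).image_of_continuousOn
    fun x hx => (g.rot.sφ x hx.2).continuousAt.continuousWithinAt) fun y hy => ?_
  exact indicator_apply_eq_zero.2 fun hy' => image_eq_zero_of_notMem_tsupport
    fun h => hy ⟨_, ⟨h, g.inv.maps' hy'⟩, g.inv.rinv y hy'⟩

theorem D (hf : Sm I f) (b : ι') : F'.D b (pu O' ψ f) =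
    pu O' ψ fun x => ∑ a, O.indicator (fun x => U x b a) x • F.D a f x := funext fun y => by
  by_cases hy : y ∈ O'
  · obtain ⟨x, hx, rfl⟩ := g.inv.surj hy
    simp only [g.pu_φ hx, indicator_of_mem hx]
    exact g.rot.D'_of hx b (md (g.sm hf) _) ((g.rot.ev hx).mono fun z hz => g.pu_φ hz f)
  · rw [pu, D_ind _ g.clo', indicator_of_notMem hy, pu_off hy]

theorem CB (k : ℕ) : ∀ {f : M → N}, F.Cb f → ∃ C, F'.CB k (pu O' ψ f) C := by
  have h0 : ∀ {f : M → N}, F.Cb f → ∃ C, ∀ y, ‖pu O' ψ f y‖ ≤ C := fun ⟨C, hC⟩ =>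
    ⟨|C 0|, fun y => by
      by_cases hy : y ∈ O'
      · rw [pu_on hy]; exact CB_bound (CB_abs (hC.2 0)) _
      · simp [pu_off hy]⟩
  induction k with
  | zero => exact fun hf => (h0 hf).imp fun _ => CB_zero.2
  | succ k ih =>
    intro f hf
    obtain ⟨C, hC⟩ := h0 hf
    choose D hD using fun b => ih (Cb_sum Finset.univ fun a _ => Cb_smul (g.cb b a) (Cb_D hf a))
    refine ⟨|C| + ∑ b, |D b|, CB_succ.2 ⟨fun y => (hC y).trans ((le_abs_self C).trans
      (le_add_of_nonneg_right (by positivity))), fun b => ?_⟩⟩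
    rw [g.D hf.choose_spec.1]
    exact CB_mono (CB_abs (hD b)) ((Finset.single_le_sum (f := fun b => |D b|)
      (fun _ _ => abs_nonneg _) (Finset.mem_univ b)).trans (le_add_of_nonneg_left (abs_nonneg C)))

theorem Cb (hf : F.Cb f) : F'.Cb (pu O' ψ f) :=
  ⟨fun k => (g.CB k hf).choose, g.sm hf.choose_spec.1, fun k => (g.CB k hf).choose_spec⟩

theorem symm : PT F' F O' O ψ φ fun y a b => U (ψ y) b a :=
  ⟨g.cl', g.cl, g.rot.symm (Wz78.frm F) g.inv, g.rot.inv g.inv, map_inv g.rot.opn g.inv.opn'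
    (fun x hx => (g.rot.sφ x hx).continuousAt) (fun y hy => (g.inv.sψ y hy).continuousAt)
    g.inv.linv g.μ, fun a b => by
      convert g.Cb (g.cb b a) using 1
      exact indicator_congr fun y hy => (indicator_of_mem (g.inv.maps' hy) fun x => U x b a).symm⟩

/-- integrals of related functions -/
theorem int {f : M → ℝ} {f' : M' → ℝ} (h : ∀ x ∈ O, f' (φ x) = f x) (h0 : ∀ x ∉ O, f x = 0)
    (h0' : ∀ y ∉ O', f' y = 0) : ∫ y, f' y ∂F'.μ = ∫ x, f x ∂F.μ := by
  rw [← setIntegral_eq_integral_of_forall_compl_eq_zero h0,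
    ← setIntegral_eq_integral_of_forall_compl_eq_zero h0', integral_inv g.rot.opn g.inv.opn'
      (fun x hx => (g.rot.sφ x hx).continuousAt) (fun y hy => (g.inv.sψ y hy).continuousAt)
      g.inv.linv g.inv.rinv g.μ]
  exact integral_congr_ae ((ae_restrict_mem g.rot.opn.measurableSet).mono h)

theorem nrm0 {u : M → V} (hu : Sm I u) (hc : HasCompactSupport u) :
    F'.nrm 0 (pu O' ψ u) ≤ F.nrm 0 u := by
  refine Real.sqrt_le_sqrt ((g.int (f := O.indicator fun x => ⟪u x, u x⟫_ℝ)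
    (fun x hx => by rw [g.pu_φ hx, indicator_of_mem hx]) (fun x hx => indicator_of_notMem hx _)
    fun y hy => by rw [pu_off hy, inner_zero_left]).trans_le ?_)
  rw [integral_indicator g.rot.opn.measurableSet]
  exact setIntegral_le_integral (F.integrable_inner hu.continuous hc hu.continuous)
    (.of_forall fun _ => real_inner_self_nonneg)

theorem nrm (k : ℕ) : ∃ C, 0 ≤ C ∧ ∀ {u : M → V}, Sm I u → HasCompactSupport u →
    F'.nrm k (pu O' ψ u) ≤ C * F.nrm k u := by
  induction k with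
  | zero => exact ⟨1, zero_le_one, fun hu hc => (g.nrm0 hu hc).trans_eq (one_mul _).symm⟩
  | succ k ih =>
    obtain ⟨C, C0, ih⟩ := ih
    obtain ⟨D, hD⟩ := Cb_unif (f := fun s : ι' × ι => O.indicator fun x => U x s.1 s.2)
      fun s => g.cb s.1 s.2
    have hK := cK_nonneg (ι := ι) k
    refine ⟨1 + Fintype.card ι' * (C * (Fintype.card ι * (cK ι k * |D k|))), by positivity,
      fun {u} hu hc => ?_⟩
    have s1 : ∀ b a, Sm I fun x => O.indicator (fun x => U x b a) x • F.D a u x :=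
      fun b a => ((hD (b, a)).1).smul (F.sm_D hu a)
    have s2 : ∀ b a, HasCompactSupport fun x => O.indicator (fun x => U x b a) x • F.D a u x :=
      fun b a => (F.hcs_D hc a).mono fun x hx h => hx (by simp [h])
    have h1 : ∀ b, F'.nrm k (F'.D b (pu O' ψ u)) ≤
        C * (Fintype.card ι * (cK ι k * |D k|) * F.nrm (k + 1) u) := fun b => by
      rw [g.D hu]
      refine (ih (contMDiff_finsetSum fun a _ => s1 b a) (HasCompactSupport.intro
        hc fun x hx => Finset.sum_eq_zero fun a _ => by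
          rw [image_eq_zero_of_notMem_tsupport (f := F.D a u) fun k => hx (F.tsupport_D u a k),
            smul_zero])).trans (mul_le_mul_of_nonneg_left ?_ C0)
      refine (nrm_sum_le Finset.univ k (fun a _ => s1 b a) fun a _ => s2 b a).trans
        ((Finset.sum_le_sum fun a _ => (nrm_smul (hD (b, a)).1 (F.sm_D hu a) ((hD (b, a)).2 k)
        (FL_of_hcs k (F.sm_D hu a) (F.hcs_D hc a))).trans
        (mul_le_mul_of_nonneg_left (nrm_D_le k u a) (by positivity))).trans (le_of_eq ?_))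
      simp [mul_assoc]
    have h2 := (g.nrm0 hu hc).trans (nrm_mono (Nat.zero_le (k + 1)) u)
    have h3 := Finset.sum_le_sum fun b (_ : b ∈ Finset.univ) => h1 b
    rw [Finset.sum_const, Finset.card_univ, nsmul_eq_mul] at h3
    exact (nrm_succ_le k _).trans ((add_le_add h2 h3).trans (le_of_eq (by ring)))

end PT

variable (F O O' φ) in
/-- a bounded isometry of bundles over `φ : O → O'` with the adjoint `T'` -/
structure BI (p : M → V →L[ℝ] V) (p' : M' → V' →L[ℝ] V') (T : M → V →L[ℝ] V')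
    (T' : M → V' →L[ℝ] V) : Prop where
  cb : F.Cb T
  cb' : F.Cb T'
  ad : ∀ x v v', ⟪T x v, v'⟫_ℝ = ⟪v, T' x v'⟫_ℝ
  m : ∀ x ∈ O, ∀ v, p x v = v → p' (φ x) (T x v) = T x v ∧ T' x (T x v) = v
  m' : ∀ x ∈ O, ∀ v, p' (φ x) v = v → p x (T' x v) = T' x v ∧ T x (T' x v) = v
  off : ∀ x ∉ O, ∀ v, p x v = v → v = 0
  off' : ∀ y ∉ O', ∀ v, p' y v = v → v = 0

variable {p : M → V →L[ℝ] V} {p' : M' → V' →L[ℝ] V'} {T : M → V →L[ℝ] V'} {T' : M → V' →L[ℝ] V}
  {q : M → W →L[ℝ] W} {q' : M' → W' →L[ℝ] W'} {S : M → W →L[ℝ] W'} {S' : M → W' →L[ℝ] W}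

variable (O φ T) in
/-- related sections -/
def RS (w : M → V) (w' : M' → V') : Prop := ∀ x ∈ O, w' (φ x) = T x (w x)

variable (O' ψ T) in
/-- the transported section -/
def tr (w : M → V) : M' → V' := pu O' ψ fun x => T x (w x)

namespace BI
variable (a : BI F O O' φ p p' T T') (g : PT F F' O O' φ ψ U)
include a g

theorem symm : BI F' O' O ψ p' p (pu O' ψ T') (pu O' ψ T) where
  cb := g.Cb a.cb'
  cb' := g.Cb a.cb
  ad y v v' := by
    by_cases hy : y ∈ O'
    · rw [pu_on hy, pu_on hy, real_inner_comm, ← a.ad, real_inner_comm]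
    · simp [pu_off hy]
  m y hy v hv := by
    obtain ⟨x, hx, rfl⟩ := g.inv.surj hy
    simpa only [g.pu_φ hx, g.inv.linv x hx] using a.m' x hx v hv
  m' y hy v hv := by
    obtain ⟨x, hx, rfl⟩ := g.inv.surj hy
    rw [g.inv.linv x hx] at hv
    simpa only [g.pu_φ hx] using a.m x hx v hv
  off := a.off'
  off' := a.off

omit a in
theorem _root_.Crest.Agent.X212.Nat27.PT.rs (w : M → V) : RS O φ T w (tr O' ψ T w) :=
  fun _ hx => g.pu_φ hx _

theorem mem {w : M → V} (hw : w ∈ Sec I p) : tr O' ψ T w ∈ Sec I' p' :=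
  ⟨g.sm (a.cb.choose_spec.1.clm_apply hw.1), g.hcs (hw.2.1.mono fun x hx h => hx (by simp [h])),
    fun y => by
      by_cases hy : y ∈ O'
      · obtain ⟨x, hx, rfl⟩ := g.inv.surj hy
        rw [g.rs w x hx]
        exact (a.m x hx _ (hw.2.2 x)).1
      · rw [tr, pu_off hy, map_zero]⟩

theorem eq_tr {w : M → V} {w' : M' → V'} (hw : w' ∈ Sec I' p') (h : RS O φ T w w') :
    w' = tr O' ψ T w := funext fun y => by
  by_cases hy : y ∈ O'
  · obtain ⟨x, hx, rfl⟩ := g.inv.surj hy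
    rw [g.rs w x hx, h x hx]
  · rw [tr, pu_off hy, a.off' y hy _ (hw.2.2 y)]

theorem rs_symm {w' : M' → V'} (hw : w' ∈ Sec I' p') : RS O φ T (tr O φ (pu O' ψ T') w') w' :=
  fun x hx => by
    rw [tr, pu_on hx, g.pu_φ hx]
    exact (a.m' x hx _ (hw.2.2 _)).2.symm

theorem rep (k : ℕ) : F.RepT F'.toPre (F.liftT k k p F'.toPre p' (tr O' ψ T)) (tr O' ψ T) := by
  obtain ⟨C, C0, hC⟩ := g.nrm (V := V') k
  obtain ⟨D, hD⟩ := a.cb
  have hK := cK_nonneg (ι := ι) k
  refine (rep_liftT (fun _ => a.mem g) (fun u _ v _ => funext fun y => ?_)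
    (fun c u _ => funext fun y => ?_) (C := C * (cK ι k * |D k|)) (by positivity) fun u hu => ?_).1
  · by_cases hy : y ∈ O' <;> simp [tr, pu, hy]
  · by_cases hy : y ∈ O' <;> simp [tr, pu, hy]
  · exact (hC (hD.1.clm_apply hu.1) (hu.2.1.mono fun x hx h => hx (by simp [h]))).trans
      ((mul_le_mul_of_nonneg_left (nrm_app hD.1 hu.1 (hD.2 k) (FL_of_hcs k hu.1 hu.2.1)) C0).trans_eq
        (mul_assoc _ _ _).symm)

/-- **the transport of Sobolev spaces** -/
def eH (k : ℕ) : F.H k p ≃L[ℝ] F'.H k p' :=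
  .equivOfInverse (F.liftT k k p F'.toPre p' (tr O' ψ T))
    (F'.liftT k k p' F.toPre p (tr O φ (pu O' ψ T')))
    (DFunLike.congr_fun (RepT_eq (RepT_comp ((a.symm g).rep g.symm k) (a.rep g k)) Rep_id
      fun u => ((a.symm g).eq_tr g.symm u.2 fun y hy => by
        obtain ⟨x, hx, rfl⟩ := g.inv.surj hy
        rw [g.rs _ x hx, g.pu_φ hx, g.inv.linv x hx, (a.m x hx _ (u.2.2.2 x)).2]).symm))
    (DFunLike.congr_fun (RepT_eq (RepT_comp (a.rep g k) ((a.symm g).rep g.symm k)) Rep_id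
      fun u => (a.eq_tr g u.2 (a.rs_symm g u.2)).symm))

variable (b : BI F O O' φ q q' S S')
include b

/-- **conjugate operators have the same index** -/
theorem fr {j k : ℕ} {A : F.H j p →L[ℝ] F.H k q} {A' : F'.H j p' →L[ℝ] F'.H k q'}
    {L : (M → V) → M → W} {L' : (M' → V') → M' → W'} (hA : F.Rep A L) (hA' : F'.Rep A' L')
    (nat : ∀ w ∈ Sec I p, ∀ w' ∈ Sec I' p', RS O φ T w w' → RS O φ S (L w) (L' w')) {d : ℤ}
    (h : Fr A d) : Fr A' d := by
  have r := RepT_comp hA' (a.rep g j)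
  have e := RepT_eq r (RepT_comp (b.rep g k) hA) fun u =>
    b.eq_tr g (RepT_mem r u) (nat _ u.2 _ (a.mem g u.2) (g.rs _))
  refine (h.conj (a.eH g j).symm (b.eH g k)).congr fun v => ?_
  obtain ⟨v, rfl⟩ := (a.eH g j).surjective v
  simp only [ContinuousLinearMap.comp_apply, ContinuousLinearEquiv.coe_coe,
    ContinuousLinearEquiv.symm_apply_apply]
  exact DFunLike.congr_fun e v

end BI

/-- **formal adjoints are natural** -/
theorem adj_rs [FiniteDimensional ℝ V] [FiniteDimensional ℝ W] [FiniteDimensional ℝ V']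
    [FiniteDimensional ℝ W'] {A : Op M ι V W} {A' : Op M' ι' V' W'} {C C' : ℕ → ℝ}
    (g : PT F F' O O' φ ψ U) (t : F.Tame C) (h : A.Good F C) (t' : F'.Tame C') (h' : A'.Good F' C')
    (a : BI F O O' φ A.p A'.p T T') (b : BI F O O' φ A.q A'.q S S')
    (nat : ∀ w ∈ Sec I A.p, ∀ w' ∈ Sec I' A'.p, RS O φ T w w' → RS O φ S (A.app F w) (A'.app F' w'))
    {v : M → W} (hv : v ∈ Sec I A.q) {v' : M' → W'} (hv' : v' ∈ Sec I' A'.q) (r : RS O φ S v v') :
    RS O φ T ((A.adj F).app F v) ((A'.adj F').app F' v') := by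
  have h1 : (A'.adj F').app F' v' ∈ Sec I' A'.p :=
    RepT_mem (rep_OpH (good_adj t' h').choose_spec 0).1 ⟨_, hv'⟩
  have h2 : (A.adj F).app F v ∈ Sec I A.p :=
    RepT_mem (rep_OpH (good_adj t h).choose_spec 0).1 ⟨_, hv⟩
  have h3 := sub_mem h1 (a.mem g h2)
  have h4 := (a.symm g).mem g.symm h3
  have e1 := adj_ip h' ⟨_, h3⟩ (toT _ ⟨_, hv'⟩)
  have e2 := adj_ip h ⟨_, h4⟩ (toT _ ⟨_, hv⟩)
  have n := nat _ h4 _ h3 (a.rs_symm g h3)
  have e3 := e1.symm.trans ((g.int (fun x hx => ?_) (fun x hx => ?_) fun x hx => ?_).trans e2)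
  rotate_left
  · exact (congrArg₂ (⟪·, ·⟫_ℝ) (n x hx) (r x hx)).trans ((b.ad _ _ _).trans
      (congrArg (⟪_, ·⟫_ℝ) (b.m x hx _ (hv.2.2 x)).2))
  · exact (congrArg (⟪_, ·⟫_ℝ) (b.off x hx _ (hv.2.2 x))).trans (inner_zero_right _)
  · exact (congrArg (⟪_, ·⟫_ℝ) (b.off' x hx _ (hv'.2.2 x))).trans (inner_zero_right _)
  replace e3 : F'.ip 0 ((A'.adj F').app F' v' - tr O' ψ T ((A.adj F).app F v))
      ((A'.adj F').app F' v') = F.ip 0 (tr O φ (pu O' ψ T') ((A'.adj F').app F' v' -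
        tr O' ψ T ((A.adj F).app F v))) ((A.adj F).app F v) := e3
  clear e1 e2 n
  generalize (A'.adj F').app F' v' = s at *
  generalize (A.adj F).app F v = u at *
  have := Sob92.openPos F'.toPre
  have e4 : ∫ y, ⟪(s - tr O' ψ T u) y, (s - tr O' ψ T u) y⟫_ℝ ∂F'.μ = 0 := by
    refine (integral_congr_ae (.of_forall fun x => inner_sub_right _ _ _)).trans
      ((integral_sub (F'.integrable_inner h3.1.continuous h3.2.1 h1.1.continuous)
        (F'.integrable_inner h3.1.continuous h3.2.1 (a.mem g h2).1.continuous)).trans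
        (sub_eq_zero.2 (e3.trans (g.int (fun x hx => ?_) (fun x hx => ?_) fun x hx => ?_).symm)))
    · rw [g.rs u x hx, real_inner_comm, a.ad, real_inner_comm, ← g.pu_φ hx T']
      exact congrArg (⟪·, _⟫_ℝ) (pu_on hx fun y => pu O' ψ T' y ((s - tr O' ψ T u) y)).symm
    · rw [a.off x hx _ (h2.2.2 x), inner_zero_right]
    · rw [tr, pu_off hx, inner_zero_right]
  rw [integral_eq_zero_iff_of_nonneg (fun x => real_inner_self_nonneg)
    (F'.integrable_inner h3.1.continuous h3.2.1 h3.1.continuous),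
    (h3.1.continuous.inner h3.1.continuous).ae_eq_iff_eq _ continuous_zero] at e4
  exact fun x hx => (sub_eq_zero.1 (inner_self_eq_zero.1 (congrFun e4 (φ x)))).trans (g.rs u x hx)

end Crest.Agent.X212.Nat27
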